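import Vale.Agent.P146.H865.F1
import Vale.Agent.P146.H560.Unit

/-!
# P146, lower half: the flow in the letters of the laws (helper865)

`InL`, `InU`, `Crs` are the three row inputs of `Dat`.  `Hits` : the exponent `u` is a hitting
point of the level `A^3/12` of the flow variable `QU`.  `RowsSK` : the rows hold at every hitting
point.  `flow` : then there are no hitting points.
-/

namespace Vale.Agent.P146.H865

open Set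
open Vale.Agent.P146.H560 Vale.Agent.P146.U

/-- inner row at the exponent `1`, field `0` (lower side) -/
def InL (β κ ε S d : ℝ) (ψ : ℝ → ℝ → ℝ → ℝ) : Prop :=
  ∃ α K : ℝ, (∀ w' ∈ Icc (0 : ℝ) 1, ψ S 1 w' ≤ ψ S 1 0 + α / (4 * β) * w' + d) ∧
    ψ S 1 0 + K * κ - d ≤ ψ S (1 + κ) 0 ∧ (max α 0) ^ 3 / 12 ≤ K + ε + d

/-- inner rows at the exponent `1 + κ` (upper side) -/
def InU (β C B κ S d : ℝ) (ψ : ℝ → ℝ → ℝ → ℝ) : Prop :=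
  ∀ w ∈ Icc (0 : ℝ) 1, ∃ α K : ℝ, -B ≤ α ∧
    (∀ w' ∈ Icc (0 : ℝ) 1, ψ S (1 + κ) w' ≤ ψ S (1 + κ) w + α / (4 * β) * (w' - w) + d) ∧
    ψ S (1 + κ) w - K * κ - d ≤ ψ S 1 w ∧
    K ≤ (1 + C * max α 0) * (max α 0) ^ 3 / 12 + C * w * max α 0 + C * w * √w + d

/-- cross rows at the exponent `1 + κ` -/
def Crs (β C κ S T1 d : ℝ) (ψ : ℝ → ℝ → ℝ → ℝ) : Prop :=
  ∀ s ∈ Icc T1 S, ∀ w ∈ Icc (0 : ℝ) 1, ∃ θ α : ℝ,
    (∀ w' ∈ Icc (0 : ℝ) 1, ψ s (1 + κ) w' ≤ ψ s (1 + κ) w + α / (4 * β) * (w' - w) + d) ∧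
    (∀ s' ∈ Icc T1 S, ψ s' (1 + κ) w ≤ ψ s (1 + κ) w + θ * (s' - s) + d) ∧
    Gc (1 + κ) * (max (α - s) 0) ^ 2 ≤ θ + d ∧
    θ ≤ (1 + C * max (α - s) 0) * (Gc (1 + κ) * (max (α - s) 0) ^ 2) + d

/-- `InU` is monotone in the constant. -/
lemma InU.mono {β C C' B κ S d : ℝ} {ψ : ℝ → ℝ → ℝ → ℝ} (h : InU β C B κ S d ψ) (hC : C ≤ C') :
    InU β C' B κ S d ψ := by
  intro w hw
  obtain ⟨α, K, h1, h2, h3, h4⟩ := h w hw
  refine ⟨α, K, h1, h2, h3, h4.trans ?_⟩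
  have a0 : 0 ≤ max α 0 := le_max_right _ _
  have k1 : (1 + C * max α 0) * (max α 0) ^ 3 ≤ (1 + C' * max α 0) * (max α 0) ^ 3 := by
    refine mul_le_mul_of_nonneg_right ?_ (by positivity)
    have := mul_le_mul_of_nonneg_right hC a0
    linarith
  have k2 : C * w * max α 0 ≤ C' * w * max α 0 :=
    mul_le_mul_of_nonneg_right (mul_le_mul_of_nonneg_right hC hw.1) a0
  have k3 : C * w * √w ≤ C' * w * √w :=
    mul_le_mul_of_nonneg_right (mul_le_mul_of_nonneg_right hC hw.1) (Real.sqrt_nonneg _)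
  linarith

/-- `Crs` is monotone in the constant. -/
lemma Crs.mono {β C C' κ S T1 d : ℝ} {ψ : ℝ → ℝ → ℝ → ℝ} (h : Crs β C κ S T1 d ψ)
    (hκ : 0 ≤ κ) (hκ1 : κ ≤ 1 / 200) (hC : C ≤ C') : Crs β C' κ S T1 d ψ := by
  intro s hs w hw
  obtain ⟨θ, α, h1, h2, h3, h4⟩ := h s hs w hw
  refine ⟨θ, α, h1, h2, h3, h4.trans ?_⟩
  have a0 : 0 ≤ max (α - s) 0 := le_max_right _ _
  have hG : 0 ≤ Gc (1 + κ) := by linarith [Gc_lo hκ hκ1]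
  have k1 : (1 + C * max (α - s) 0) * (Gc (1 + κ) * (max (α - s) 0) ^ 2) ≤
      (1 + C' * max (α - s) 0) * (Gc (1 + κ) * (max (α - s) 0) ^ 2) := by
    refine mul_le_mul_of_nonneg_right ?_ (by positivity)
    have := mul_le_mul_of_nonneg_right hC a0
    linarith
  linarith

/-- `Dat` from its parts. -/
lemma Dat.of {β C B κ A ε S T1 d : ℝ} {ψ : ℝ → ℝ → ℝ → ℝ} {p : ℝ → ℝ}
    (h1 : InL β κ ε S d ψ) (h2 : InU β C B κ S d ψ) (h3 : Crs β C κ S T1 d ψ)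
    (k1 : |ψ S 1 0 - p 1| ≤ ε) (k2 : |ψ S (1 + κ) 0 - p (1 + κ)| ≤ ε)
    (k0 : p (51 / 100) - ε ≤ ψ T1 (1 + κ) 0) (m : MonotoneOn p (Icc (1 / 2) (1 + κ)))
    (h : p (1 + κ) - p 1 = κ * (A ^ 3 / 12))
    (l : ∀ v ∈ Ico (1 / 2 : ℝ) 1, p ((1 + κ) * v) - p v ≤ κ * (A ^ 3 / 12) * v ^ 5) :
    Dat β C B κ A ε S T1 d ψ p :=
  ⟨h1, h2, h3, k1, k2, k0, m, h, l⟩

/-- `u` is a hitting point of the level `A^3/12` from above: the level is reached at every scale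
of `[u, x0]`, it is taken at `u`, and the flow variable is smaller on `[u/2, u)`. -/
structure Hits (n : ℕ) (β κ A x0 u : ℝ) : Prop where
  gr : ∀ y ∈ Icc u x0, ∃ v ∈ Icc (y / 2) y, A ^ 3 / 12 ≤ QU n β κ v
  hit : QU n β κ u = A ^ 3 / 12
  low : ∀ v ∈ Ico (u / 2) u, QU n β κ v < A ^ 3 / 12

/-- The three rows at every hitting point.  Order of the constants: `C` (rows), `κ` (window),
`A` (level), `ε`, `S0`, `S`, `τ0`, `τ`, `B` (response), `d`, then `K` and `n0`. -/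
def RowsSK (β : ℝ) (X0 : ℕ → ℝ) : Prop :=
  ∃ C : ℝ, 1 ≤ C ∧ ∀ κ : ℝ, 0 < κ → κ ≤ 1 / 200 → ∀ A : ℝ, 0 < A → A ≤ 1 →
    ∀ ε : ℝ, 0 < ε → ∃ S0 : ℝ, ∀ S : ℝ, S0 ≤ S → ∃ τ0 : ℝ, 0 < τ0 ∧
      ∀ τ : ℝ, 0 < τ → τ ≤ τ0 → ∃ B : ℝ, 0 ≤ B ∧ ∀ d : ℝ, 0 < d → ∃ K : ℝ, ∃ n0 : ℕ,
        ∀ n : ℕ, n0 ≤ n → ∀ u : ℝ, K * (n : ℝ) ^ (-(1 / 6) : ℝ) ≤ u → u ≤ X0 n →
          Hits n β κ A (X0 n) u →
            InL β κ ε S d (psiU n β κ τ u) ∧ InU β C B κ S d (psiU n β κ τ u) ∧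
              Crs β C κ S (2 * τ) d (psiU n β κ τ u)

/-- the law of three levels at zero field is above the base point -/
lemma link_zero' {n : ℕ} {β κ T1 u s : ℝ} (hn0 : 0 < n) (hu : 0 < u) (hκ : 0 ≤ κ)
    (hκu : (1 + κ) * u ≤ 1) (hT : 0 < T1) (hTs : T1 ≤ s) (hsu : s * u ^ 2 ≤ 1) :
    pU n β u (51 / 100) ≤ psiU n β κ T1 u s (1 + κ) 0 := by
  have hnR : (0 : ℝ) < n := Nat.cast_pos.2 hn0
  have hu5 : 0 < (n : ℝ) * u ^ 5 := by positivity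
  have hy0 : 0 < 51 / 100 * u := by positivity
  have hyz : 51 / 100 * u ≤ (1 + κ) * u := mul_le_mul_of_nonneg_right (by linarith) hu.le
  have hTu : 0 ≤ T1 * u ^ 2 := by positivity
  have hSTu : 0 ≤ (s - T1) * u ^ 2 := mul_nonneg (by linarith) (by positivity)
  rw [pU_base]
  have h3 : P1 n β (51 / 100 * u) ≤ P3 n β ((1 + κ) * u) (T1 * u ^ 2) (51 / 100 * u)
      ((s - T1) * u ^ 2) ((1 + κ) * u) := by
    have hz0 : 0 < (1 + κ) * u := hy0.trans_le hyz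
    refine AP.W_le_P3 hy0 hz0 hy0 le_rfl hyz hyz hTu hSTu ?_
    have : T1 * u ^ 2 + (s - T1) * u ^ 2 = s * u ^ 2 := by ring
    linarith
  unfold psiU
  rw [fe_zero hu (by linarith) le_rfl hκu, zero_mul, mul_zero, zero_div, sub_zero]
  exact div_nonneg (by linarith) hu5.le

end Vale.Agent.P146.H865
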