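import Vale.Agent.P146.H865.StartQ
import Vale.Agent.P146.H607.Fin4

/-!
# P146, lower half: the lower bound of the share from the rows (helper865)

`master` : if the three rows hold at every hitting point (`RowsSK`), the share of the pure law is
at least `c n x⁴` for `K n^(-1/6) ≤ x ≤ n^(-1/10)`.
-/

namespace Vale.Agent.P146.H865

open Set Filter Topology
open Vale.Agent.P146.H560 Vale.Agent.P146.U

/-- **The lower half from the rows.** -/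
theorem master {β : ℝ} (hβ : 1 < β) {X0 : ℕ → ℝ}
    (hX : ∀ᶠ n : ℕ in atTop, (n : ℝ) ^ (-(23 / 200) : ℝ) ≤ X0 n)
    (hX1 : ∀ᶠ n : ℕ in atTop, X0 n ≤ (n : ℝ) ^ (-(1 / 10) : ℝ)) (hR : RowsSK β X0) :
    ∃ c K : ℝ, ∃ n0 : ℕ, 0 < c ∧ 0 < K ∧ ∀ n : ℕ, n0 ≤ n → ∀ x : ℝ,
      K * (n : ℝ) ^ (-(1 / 6) : ℝ) ≤ x → x ≤ (n : ℝ) ^ (-(1 / 10) : ℝ) →
        c * (n * x ^ 4) ≤ AP.Wn n β x := by
  have hβ0 : 0 < β := by linarith
  exact lo hβ0 hX hX1 (ex2_strong (H240.kstar hβ0) (cgfU hβ))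
    (ex2_of (H240.kstar hβ0) (cgfU hβ)) (lstar_of_lrho (H979.lrho hβ0)) (startQ hβ) hR

end Vale.Agent.P146.H865
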