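import Mathlib

/-!
# P146, lower half: the hitting lemma with the induction hypothesis (helper865)

A continuous quantity `Q` with `a ≤ Q x0`.  If there is no point `u ∈ [x1, x0]` with `Q u = a`,
`Q < a` on `[u/2, u)` and `a ≤ Q` somewhere in every `[y/2, y]`, `u ≤ y ≤ x0`, then `a ≤ Q`
somewhere in every `[x/2, x]`, `x1 ≤ x ≤ x0`.
-/

namespace Vale.Agent.P146.H865

open Set

/-- **Hitting lemma with the induction hypothesis.** -/
theorem hit_ind {Q : ℝ → ℝ} {x1 x0 a : ℝ} (hQ : ContinuousOn Q (Ioi 0)) (hx1 : 0 < x1)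
    (h0 : a ≤ Q x0)
    (hF : ∀ u, x1 ≤ u → u ≤ x0 → (∀ y ∈ Icc u x0, ∃ v ∈ Icc (y / 2) y, a ≤ Q v) → Q u = a →
      (∀ v ∈ Ico (u / 2) u, Q v < a) → False) :
    ∀ x, x1 ≤ x → x ≤ x0 → ∃ v ∈ Icc (x / 2) x, a ≤ Q v := by
  intro x hx hx0
  by_contra hcon
  push Not at hcon
  obtain ⟨F, hFd⟩ : ∃ F : Set ℝ, F = {y ∈ Icc x1 x0 | ∀ v ∈ Icc (y / 2) y, Q v < a} := ⟨_, rfl⟩
  have hxF : x ∈ F := by rw [hFd]; exact ⟨⟨hx, hx0⟩, hcon⟩
  have hne : F.Nonempty := ⟨x, hxF⟩
  have hbd : BddAbove F := ⟨x0, fun v hv => by rw [hFd] at hv; exact hv.1.2⟩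
  obtain ⟨u, hu⟩ : ∃ u, u = sSup F := ⟨_, rfl⟩
  have hxu : x ≤ u := by rw [hu]; exact le_csSup hbd hxF
  have hux0 : u ≤ x0 := by
    rw [hu]; exact csSup_le hne fun v hv => by rw [hFd] at hv; exact hv.1.2
  have hu1 : x1 ≤ u := hx.trans hxu
  have hup : 0 < u := hx1.trans_le hu1
  -- above `u` the level is reached
  have hG : ∀ y, u < y → y ≤ x0 → ∃ v ∈ Icc (y / 2) y, a ≤ Q v := by
    intro y hy hy0
    by_contra hc
    push Not at hc
    have hyF : y ∈ F := by rw [hFd]; exact ⟨⟨hu1.trans hy.le, hy0⟩, hc⟩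
    have := le_csSup hbd hyF
    rw [← hu] at this
    linarith
  -- below `u` the quantity is small
  have hlow : ∀ v ∈ Ico (u / 2) u, Q v < a := by
    intro v hv
    obtain ⟨y, hy, hvy⟩ := exists_lt_of_lt_csSup hne (by rw [← hu]; exact hv.2 : v < sSup F)
    have hyu : y ≤ u := by rw [hu]; exact le_csSup hbd hy
    rw [hFd] at hy
    exact hy.2 v ⟨by linarith [hv.1], hvy.le⟩
  have hcu : ContinuousAt Q u := hQ.continuousAt (Ioi_mem_nhds hup)
  -- `a ≤ Q u`
  have hau : a ≤ Q u := by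
    by_contra hc
    push Not at hc
    rcases hux0.lt_or_eq with hlt | heq
    · have hev : ∀ᶠ v in nhds u, Q v < a := hcu.eventually_lt_const hc
      obtain ⟨δ, hδ, hb⟩ := Metric.eventually_nhds_iff.1 hev
      obtain ⟨y, hy⟩ : ∃ y, y = min (u + δ / 2) x0 := ⟨_, rfl⟩
      have hy1 : u < y := by rw [hy]; exact lt_min (by linarith) hlt
      have hy2 : y ≤ x0 := by rw [hy]; exact min_le_right _ _
      have hy3 : y ≤ u + δ / 2 := by rw [hy]; exact min_le_left _ _
      obtain ⟨v, hv, hav⟩ := hG y hy1 hy2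
      rcases lt_or_ge v u with h | h
      · have := hlow v ⟨by linarith [hv.1], h⟩
        linarith
      · have hd : dist v u < δ := by
          rw [Real.dist_eq, abs_of_nonneg (by linarith)]
          linarith [hv.2]
        have := hb hd
        linarith
    · rw [heq] at hc
      linarith
  -- `Q u ≤ a`
  have hua : Q u ≤ a := by
    by_contra hc
    push Not at hc
    have hev : ∀ᶠ v in nhds u, a < Q v := hcu.eventually_const_lt hc
    obtain ⟨δ, hδ, hb⟩ := Metric.eventually_nhds_iff.1 hev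
    obtain ⟨v, hv⟩ : ∃ v, v = max (u - δ / 2) (u / 2) := ⟨_, rfl⟩
    have hv1 : u / 2 ≤ v := by rw [hv]; exact le_max_right _ _
    have hv2 : v < u := by rw [hv]; exact max_lt (by linarith) (by linarith)
    have hv3 : u - δ / 2 ≤ v := by rw [hv]; exact le_max_left _ _
    have hd : dist v u < δ := by
      rw [Real.dist_eq, abs_of_nonpos (by linarith)]
      linarith
    have h1 := hb hd
    have h2 := hlow v ⟨hv1, hv2⟩
    linarith
  refine hF u hu1 hux0 ?_ (le_antisymm hua hau) hlow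
  intro y hy
  rcases hy.1.lt_or_eq with h | h
  · exact hG y h hy.2
  · exact ⟨u, ⟨by linarith, h.le⟩, hau⟩

end Vale.Agent.P146.H865
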