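import Vale.Agent.P146.H865.Flow
import Vale.Agent.P146.H865.Hit2
import Vale.Agent.P146.H645x.HitP

/-!
# P146, lower half: the lower bound of the share of the pure law (helper865)

`lo` : the rows at the hitting points and the start imply `Wn n β x ≥ c n x⁴` for
`K n^(-1/6) ≤ x ≤ n^(-1/10)`.
-/

namespace Vale.Agent.P146.H865

open Set Filter Topology
open Vale.Agent.P146.H560 Vale.Agent.P146.U Vale.Agent.P146.H645x Vale.Agent.P146.R1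

/-- The start: the flow variable is bounded below for `n^(-23/200) ≤ x ≤ δ`. -/
def StartQ (β : ℝ) : Prop := ∃ c : ℝ, 0 < c ∧ ∀ κ : ℝ, 0 < κ → κ ≤ 1 / 200 →
  ∃ δ : ℝ, 0 < δ ∧ ∀ᶠ n : ℕ in atTop, ∀ x : ℝ, (n : ℝ) ^ (-(23 / 200) : ℝ) ≤ x → x ≤ δ →
    c ≤ QU n β κ x

lemma QU_cont {n : ℕ} {β κ : ℝ} (hn : 0 < n) (hκ : 0 < κ) :
    ContinuousOn (QU n β κ) (Ioi 0) := by
  have hN : (0 : ℝ) < n := by exact_mod_cast hn
  have h := cont_Qw (P := P1 n β) cont_P1 hκ hN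
  refine h.congr fun v _ => ?_
  unfold QU Qw
  rw [mul_assoc]

lemma QU_ge {n : ℕ} {β κ a v : ℝ} (hn : 0 < n) (hκ : 0 < κ) (hv : 0 < v) (h : a ≤ QU n β κ v) :
    a * (κ * (n * v ^ 5)) ≤ P1 n β ((1 + κ) * v) - P1 n β v := by
  have hN : (0 : ℝ) < n := by exact_mod_cast hn
  unfold QU at h
  rwa [le_div_iff₀ (by positivity)] at h

/-- from the flow variable to the share -/
lemma W_of_QU {n : ℕ} {β κ a x : ℝ} (hn : 0 < n) (hκ : 0 < κ) (hκ1 : κ ≤ 1 / 200) (ha : 0 ≤ a)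
    (hx : 0 < x) (h : ∃ v ∈ Icc (x / 2) x, a ≤ QU n β κ v) :
    a * κ / 384 * (n * ((1 + κ) * x) ^ 4) ≤ AP.Wn n β ((1 + κ) * x) := by
  obtain ⟨v, hv, h1⟩ := h
  have hN : (0 : ℝ) < n := by exact_mod_cast hn
  have hv0 : 0 < v := by linarith [hv.1]
  have h2 := QU_ge hn hκ hv0 h1
  have h3 : P1 n β ((1 + κ) * v) ≤ P1 n β ((1 + κ) * x) := by
    refine mono_P1 ?_ ?_ (mul_le_mul_of_nonneg_left hv.2 (by linarith))
    · show 0 < (1 + κ) * v; positivity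
    · show 0 < (1 + κ) * x; positivity
  have h4 : P1 n β (x / 2) ≤ P1 n β v := mono_P1 (by show 0 < x / 2; positivity) hv0 hv.1
  have h5 : (x / 2) ^ 5 ≤ v ^ 5 := pow_le_pow_left₀ (by positivity) hv.1 5
  have h6 : a * (κ * (n * (x / 2) ^ 5)) ≤ a * (κ * (n * v ^ 5)) := by gcongr
  have hxx : x / 2 ≤ (1 + κ) * x := by nlinarith
  have h7 := P1_le_tan (n := n) (β := β) (a := x / 2) (b := (1 + κ) * x) (by positivity) hxx
  have hW0 : 0 ≤ AP.Wn n β ((1 + κ) * x) := by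
    have k3 : P1 n β (x / 2) ≤ P1 n β ((1 + κ) * x) :=
      P1_mono (n := n) (β := β) (by positivity) hxx
    have k4 : 0 < ((1 + κ) * x - x / 2) / 2 := by nlinarith
    by_contra hcon
    push Not at hcon
    have := mul_neg_of_pos_of_neg k4 hcon
    linarith
  have h8 : ((1 + κ) * x - x / 2) / 2 * AP.Wn n β ((1 + κ) * x) ≤
      3 / 4 * x * AP.Wn n β ((1 + κ) * x) := by
    refine mul_le_mul_of_nonneg_right ?_ hW0
    nlinarith
  have h9 : x * (a * κ / 24 * (n * x ^ 4)) ≤ x * AP.Wn n β ((1 + κ) * x) := by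
    have e : a * (κ * (n * (x / 2) ^ 5)) = 3 / 4 * (x * (a * κ / 24 * (n * x ^ 4))) := by ring
    rw [e] at h6
    linarith
  have h10 := le_of_mul_le_mul_left h9 hx
  refine le_trans ?_ h10
  have h11 : ((1 + κ) * x) ^ 4 ≤ 16 * x ^ 4 := by
    have h12 : (1 + κ) * x ≤ 2 * x := by nlinarith
    have h13 := pow_le_pow_left₀ (by positivity : 0 ≤ (1 + κ) * x) h12 4
    refine h13.trans (le_of_eq ?_)
    ring
  calc a * κ / 384 * (n * ((1 + κ) * x) ^ 4) ≤ a * κ / 384 * (n * (16 * x ^ 4)) := by gcongr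
    _ = a * κ / 24 * (n * x ^ 4) := by ring

/-- **The lower bound of the share.** -/
theorem lo {β : ℝ} (hβ : 0 < β) {X0 : ℕ → ℝ}
    (hX : ∀ᶠ n : ℕ in atTop, (n : ℝ) ^ (-(23 / 200) : ℝ) ≤ X0 n)
    (hX1 : ∀ᶠ n : ℕ in atTop, X0 n ≤ (n : ℝ) ^ (-(1 / 10) : ℝ))
    (h2 : Ex2Strong β) (h2' : Ex2Out β) (hL : LStar β) (hS : StartQ β) (hR : RowsSK β X0) :
    ∃ c K : ℝ, ∃ n0 : ℕ, 0 < c ∧ 0 < K ∧ ∀ n : ℕ, n0 ≤ n → ∀ x : ℝ,
      K * (n : ℝ) ^ (-(1 / 6) : ℝ) ≤ x → x ≤ (n : ℝ) ^ (-(1 / 10) : ℝ) →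
        c * (n * x ^ 4) ≤ AP.Wn n β x := by
  have hz : Tendsto (fun n : ℕ => (n : ℝ) ^ (-(1 / 10) : ℝ)) atTop (𝓝 0) :=
    (tendsto_rpow_neg_atTop (show (0 : ℝ) < 1 / 10 by norm_num)).comp tendsto_natCast_atTop_atTop
  have hX0 : Tendsto X0 atTop (𝓝 0) := by
    refine squeeze_zero' ?_ hX1 hz
    filter_upwards [hX] with n hn
    exact (Real.rpow_nonneg (Nat.cast_nonneg n) _).trans hn
  obtain ⟨κ, hκ, hκ1, Ab, hAb, hF⟩ := flow hβ hX0 hX1 h2 h2' hL hR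
  obtain ⟨cS, hcS, hSt⟩ := hS
  obtain ⟨δ, hδ, hSt⟩ := hSt κ hκ hκ1
  obtain ⟨A, hA⟩ : ∃ A : ℝ, A = min Ab (min 1 cS) := ⟨_, rfl⟩
  have hA0 : 0 < A := by rw [hA]; exact lt_min hAb (lt_min one_pos hcS)
  have hA1 : A ≤ 1 := by rw [hA]; exact (min_le_right _ _).trans (min_le_left _ _)
  have hAc : A ≤ cS := by rw [hA]; exact (min_le_right _ _).trans (min_le_right _ _)
  have hAA : A ≤ Ab := by rw [hA]; exact min_le_left _ _
  obtain ⟨K, n1, hF⟩ := hF A hA0 hAA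
  have ha : A ^ 3 / 12 ≤ cS := by
    have : A ^ 3 ≤ A := by
      calc A ^ 3 = A * A ^ 2 := by ring
        _ ≤ A * 1 := mul_le_mul_of_nonneg_left (pow_le_one₀ hA0.le hA1) hA0.le
        _ = A := mul_one A
    linarith
  have ha0 : 0 < A ^ 3 / 12 := by positivity
  obtain ⟨n2, hn2⟩ := (hX.and (hX1.and (hSt.and
    (hz.eventually_le_const hδ)))).exists_forall_of_atTop
  refine ⟨A ^ 3 / 12 * κ / 384, 2 * max K 1, max n1 (max n2 1), by positivity,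
    by positivity, ?_⟩
  intro n hn y hy hy'
  have hn1 : n1 ≤ n := (le_max_left _ _).trans hn
  have hn2' : n2 ≤ n := (le_max_left _ _).trans ((le_max_right _ _).trans hn)
  have hn0 : 0 < n := Nat.lt_of_lt_of_le one_pos
    ((le_max_right _ _).trans ((le_max_right _ _).trans hn))
  have hnR : (0 : ℝ) < n := Nat.cast_pos.2 hn0
  obtain ⟨g1, g2, g3, g4⟩ := hn2 n hn2'
  have hs : 0 < (n : ℝ) ^ (-(1 / 6) : ℝ) := Real.rpow_pos_of_pos hnR _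
  obtain ⟨x1, hx1⟩ : ∃ x1 : ℝ, x1 = max K 1 * (n : ℝ) ^ (-(1 / 6) : ℝ) := ⟨_, rfl⟩
  have hx1p : 0 < x1 := by rw [hx1]; positivity
  have hKx1 : K * (n : ℝ) ^ (-(1 / 6) : ℝ) ≤ x1 := by
    rw [hx1]; exact mul_le_mul_of_nonneg_right (le_max_left _ _) hs.le
  have hκ' : 0 < 1 + κ := by linarith
  obtain ⟨x, hx⟩ : ∃ x, x = y / (1 + κ) := ⟨_, rfl⟩
  have hyx : y = (1 + κ) * x := by rw [hx]; field_simp
  have h2x1 : 2 * x1 ≤ y := by rw [hx1, ← mul_assoc]; exact hy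
  have hx1x : x1 ≤ x := by
    rw [hyx] at h2x1
    by_contra hc
    push Not at hc
    have : (1 + κ) * x ≤ (1 + κ) * x1 := mul_le_mul_of_nonneg_left hc.le hκ'.le
    nlinarith
  have hxp : 0 < x := hx1p.trans_le hx1x
  have hxy : x ≤ y := by rw [hyx]; nlinarith
  have hX0p : 0 < X0 n := (Real.rpow_pos_of_pos hnR _).trans_le g1
  have hX0δ : X0 n ≤ δ := g2.trans g4
  have hstart : A ^ 3 / 12 ≤ QU n β κ (X0 n) := ha.trans (g3 (X0 n) g1 hX0δ)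
  rw [hyx]
  refine W_of_QU hn0 hκ hκ1 ha0.le hxp ?_
  rcases le_total x (X0 n) with hxX | hxX
  · refine hit_ind (QU_cont hn0 hκ) hx1p hstart ?_ x hx1x hxX
    intro u hu hu0 hgr hhit hlow
    exact hF n hn1 u (hKx1.trans hu) hu0 ⟨hgr, hhit, hlow⟩
  · exact ⟨x, ⟨by linarith, le_rfl⟩, ha.trans (g3 x (g1.trans hxX)
      (hxy.trans (hy'.trans g4)))⟩

end Vale.Agent.P146.H865
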