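import Vale.Agent.P146.H444.GlueL
import Vale.Agent.P146.H566.FinF
import Vale.Agent.P146.H310.StarIn
import Vale.Agent.P146.H865.Master

/-!
# P146, lower half: the closing chain from the five open Props (helper865)

`le_of` : RowUBox, RowFBox, RowLBox, CrsBox, StarOut ⟹ `H566.LE β` (the hypothesis of
`H566.two_sided`).
-/

namespace Vale.Agent.P146.H865

open Set Filter Topology
open Vale.Agent.P146.H560 Vale.Agent.P146.U

theorem rowsSK_X {β : ℝ} (hβ : 1 < β) (hU : H444.RowUBox β) (hF : H444.RowFBox β)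
    (hL : H444.RowLBox β) (hC : H444.CrsBox β) (hS : H444.StarOut β) : RowsSK β H444.X0 := by
  have hβ0 : 0 < β := by linarith
  have hE : H444.UpE β := H310.upE hβ0 (ex2_of (H240.kstar hβ0) (cgfU hβ))
    (lstar_of_lrho (H979.lrho hβ0))
  exact H444.rowsSK_of hβ0 (H444.inUBox_of hβ0 hU hF hE) (H444.inLBox_of hβ0 hL hE) hC hS

theorem le_of {β : ℝ} (hβ : 1 < β) (hU : H444.RowUBox β) (hF : H444.RowFBox β)
    (hL : H444.RowLBox β) (hC : H444.CrsBox β) (hS : H444.StarOut β) : H566.LE β := by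
  obtain ⟨c, K, n0, hc, -, h⟩ := master hβ (X0 := H444.X0)
    (Eventually.of_forall fun n => le_rfl)
    (by
      filter_upwards [eventually_ge_atTop 1] with n hn
      exact Real.rpow_le_rpow_of_exponent_le (by exact_mod_cast hn) (by norm_num))
    (rowsSK_X hβ hU hF hL hC hS)
  exact H566.le_of_lo hβ ⟨c, K, n0, hc, h⟩

end Vale.Agent.P146.H865
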