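import Vale.Agent.P146.H865.Close
import Vale.Agent.P146.H508.RF5
import Vale.Agent.P146.H595.StarF
import Vale.Agent.P146.H112.Start

/-!
# P146, lower half: the closing chain with RowFBox and StarOut discharged (helper865)

`le_of3` : RowUBox, RowLBox, CrsBox ⟹ `H566.LE β`.
-/

namespace Vale.Agent.P146.H865

open Set Filter Topology
open Vale.Agent.P146.H560 Vale.Agent.P146.U

theorem le_of3 {β : ℝ} (hβ : 1 < β) (hU : H444.RowUBox β) (hL : H444.RowLBox β)
    (hC : H444.CrsBox β) : H566.LE β := by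
  have hβ0 : 0 < β := by linarith
  have h2s : Ex2Strong β := ex2_strong (H240.kstar hβ0) (cgfU hβ)
  have h2 : Ex2Out β := ex2_of (H240.kstar hβ0) (cgfU hβ)
  have hLs : LStar β := lstar_of_lrho (H979.lrho hβ0)
  have hF : H444.RowFBox β := H508.RF.rowFBox hβ h2 hLs
  have hE : H444.UpE β := H310.upE hβ0 h2 hLs
  have hI : H444.InUBox β := H444.inUBox_of hβ0 hU hF hE
  have hS : H444.StarOut β := H595.star_out hβ0 h2s h2 hLs (startQ hβ) hI (H310.puC hβ0 h2 hLs)
    (H310.cPs hβ0 h2 hLs) (H310.inc_of hβ0.le h2 hLs) (H112.stP hβ)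
  exact le_of hβ hU hF hL hC hS

end Vale.Agent.P146.H865
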