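import Vale.Agent.P146.H865.Close2
import Vale.Agent.P146.H393.InJ
import Vale.Agent.P146.H437.CrsQ

/-!
# P146, lower half: the closing chain with RowUBox and CrsBox discharged (helper865)

`le_of1` : RowLBox ⟹ `H566.LE β`.
-/

namespace Vale.Agent.P146.H865

open Set Filter Topology
open Vale.Agent.P146.H560 Vale.Agent.P146.U

theorem le_of1 {β : ℝ} (hβ : 1 < β) (hL : H444.RowLBox β) : H566.LE β := by
  have hβ0 : 0 < β := by linarith
  have h2 : Ex2Out β := ex2_of (H240.kstar hβ0) (cgfU hβ)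
  have hLs : LStar β := lstar_of_lrho (H979.lrho hβ0)
  exact le_of3 hβ (H393.In.rowUBox hβ h2 hLs) hL (H437.crsBox hβ h2 hLs)

end Vale.Agent.P146.H865
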