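import Vale.Agent.P146.H865.Close3
import Vale.Agent.P146.H498.RowLQ

/-!
# P146: the lower half (helper865)

`le_all` : the lower half in the form used by `H566.two_sided`, for every inverse temperature
above one.
-/

namespace Vale.Agent.P146.H865

open Set Filter Topology
open Vale.Agent.P146.H560 Vale.Agent.P146.U

theorem le_all {β : ℝ} (hβ : 1 < β) : H566.LE β := by
  have hβ0 : 0 < β := by linarith
  have h2 : Ex2Out β := ex2_of (H240.kstar hβ0) (cgfU hβ)
  have hLs : LStar β := lstar_of_lrho (H979.lrho hβ0)
  exact le_of1 hβ (H498.RowLQ.rowL hβ h2 hLs)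

end Vale.Agent.P146.H865
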