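import Vale.Agent.P146.H865.F1a

/-!
# P146, lower half: the unit-scale flow theorem (helper865)

`psi s v w` = free energy (in the unit scale) of the law with the exponent `y = 0.51` on the share
`1 - s` of the bonds, the exponent `v` on `s - T1` and on the white field of variance `w`, the
exponent `1 + κ` on the share `T1`; only `v = 1` and `v = 1 + κ` occur.  `f1`: the row
inequalities and the zero-field link are contradictory when the window average of `W` at the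
exponent `1` equals a small number `A^3/12` and is not larger on `[1/2, 1)`.
-/

namespace Vale.Agent.P146.H865

open Set

/-- The coefficient `(v - y)/(4 (2v - y)^2)` of the cross row, `y = 51/100`. -/
noncomputable def Gc (v : ℝ) : ℝ := (v - 51 / 100) / (4 * (2 * v - 51 / 100) ^ 2)

/-- The data of the unit-scale flow theorem. -/
structure Dat (β C B κ A ε S T1 d : ℝ) (ψ : ℝ → ℝ → ℝ → ℝ) (p : ℝ → ℝ) : Prop where
  /-- inner row at the exponent `1`, field `0` (lower side) -/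
  inL : ∃ α K : ℝ, (∀ w' ∈ Icc (0 : ℝ) 1, ψ S 1 w' ≤ ψ S 1 0 + α / (4 * β) * w' + d) ∧
    ψ S 1 0 + K * κ - d ≤ ψ S (1 + κ) 0 ∧ (max α 0) ^ 3 / 12 ≤ K + ε + d
  /-- inner rows at the exponent `1 + κ` (upper side) -/
  inU : ∀ w ∈ Icc (0 : ℝ) 1, ∃ α K : ℝ, -B ≤ α ∧
    (∀ w' ∈ Icc (0 : ℝ) 1, ψ S (1 + κ) w' ≤ ψ S (1 + κ) w + α / (4 * β) * (w' - w) + d) ∧
    ψ S (1 + κ) w - K * κ - d ≤ ψ S 1 w ∧
    K ≤ (1 + C * max α 0) * (max α 0) ^ 3 / 12 + C * w * max α 0 + C * w * √w + d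
  /-- cross rows at the exponent `1 + κ` -/
  crs : ∀ s ∈ Icc T1 S, ∀ w ∈ Icc (0 : ℝ) 1, ∃ θ α : ℝ,
    (∀ w' ∈ Icc (0 : ℝ) 1, ψ s (1 + κ) w' ≤ ψ s (1 + κ) w + α / (4 * β) * (w' - w) + d) ∧
    (∀ s' ∈ Icc T1 S, ψ s' (1 + κ) w ≤ ψ s (1 + κ) w + θ * (s' - s) + d) ∧
    Gc (1 + κ) * (max (α - s) 0) ^ 2 ≤ θ + d ∧
    θ ≤ (1 + C * max (α - s) 0) * (Gc (1 + κ) * (max (α - s) 0) ^ 2) + d
  /-- the link with the zero-field pure laws -/
  lk1 : |ψ S 1 0 - p 1| ≤ ε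
  lk2 : |ψ S (1 + κ) 0 - p (1 + κ)| ≤ ε
  lk0 : p (51 / 100) - ε ≤ ψ T1 (1 + κ) 0
  /-- the flow variable -/
  mon : MonotoneOn p (Icc (1 / 2) (1 + κ))
  hit : p (1 + κ) - p 1 = κ * (A ^ 3 / 12)
  low : ∀ v ∈ Ico (1 / 2 : ℝ) 1, p ((1 + κ) * v) - p v ≤ κ * (A ^ 3 / 12) * v ^ 5

lemma Gc_lo {κ : ℝ} (hκ : 0 ≤ κ) (hκ1 : κ ≤ 1 / 200) : 55 / 1000 ≤ Gc (1 + κ) := by
  unfold Gc
  rw [le_div_iff₀ (by nlinarith)]
  nlinarith

lemma Gc_hi {κ : ℝ} (hκ : 0 ≤ κ) (hκ1 : κ ≤ 1 / 200) : Gc (1 + κ) ≤ 6 / 100 := by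
  unfold Gc
  rw [div_le_iff₀ (by nlinarith)]
  nlinarith

section steps

variable {β C B κ A ε S T1 d : ℝ} {ψ : ℝ → ℝ → ℝ → ℝ} {p : ℝ → ℝ}

/-- Step 1: the response at the exponent `1`, field `0`. -/
lemma step1 (D : Dat β C B κ A ε S T1 d ψ p) (hβ : 0 < β) (hκ : 0 < κ) (hκ1 : κ ≤ 1 / 200)
    (hA : 0 < A) (hε : ε ≤ κ * A ^ 3 / 20000) (hd : d ≤ κ * A ^ 3 / 20000) :
    ∀ w ∈ Icc (0 : ℝ) 1, ψ S 1 w ≤ ψ S 1 0 + 1 / (4 * β) * (1001 / 1000 * A) * w + d := by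
  obtain ⟨α, K, h1, h2, h3⟩ := D.inL
  have e1 := abs_le.1 D.lk1
  have e2 := abs_le.1 D.lk2
  have e3 := D.hit
  have hA3 : 0 < A ^ 3 := by positivity
  have hK : K * κ ≤ κ * (A ^ 3 / 12) + 3 * (κ * A ^ 3 / 20000) := by linarith
  have hK' : K ≤ A ^ 3 / 12 + 3 * (A ^ 3 / 20000) := by
    have h4 : κ * K ≤ κ * (A ^ 3 / 12 + 3 * (A ^ 3 / 20000)) := by nlinarith
    exact le_of_mul_le_mul_left h4 hκ
  have hκA : κ * A ^ 3 ≤ 1 * A ^ 3 := mul_le_mul_of_nonneg_right (by linarith) hA3.le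
  have hd' : d ≤ A ^ 3 / 20000 := by
    refine hd.trans ?_
    linarith
  have hε' : ε ≤ A ^ 3 / 20000 := by
    refine hε.trans ?_
    linarith
  have h5 : (max α 0) ^ 3 ≤ (1001 / 1000 * A) ^ 3 := by
    have : (1001 / 1000 * A) ^ 3 = (1001 / 1000) ^ 3 * A ^ 3 := by ring
    rw [this]
    have h6 : (1 + 60 / 20000 : ℝ) ≤ (1001 / 1000) ^ 3 := by norm_num
    nlinarith
  have h6 : max α 0 ≤ 1001 / 1000 * A :=
    le_of_pow_le_pow_left₀ (by norm_num) (by positivity) h5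
  have h7 : α ≤ 1001 / 1000 * A := (le_max_left _ _).trans h6
  intro w hw
  refine (h1 w hw).trans ?_
  have h8 : α / (4 * β) * w ≤ 1 / (4 * β) * (1001 / 1000 * A) * w := by
    have : α / (4 * β) = 1 / (4 * β) * α := by ring
    rw [this]
    refine mul_le_mul_of_nonneg_right ?_ hw.1
    exact mul_le_mul_of_nonneg_left h7 (by positivity)
  linarith

/-- The bound of `K` in step 2. -/
lemma bdK {a w θ C A d K : ℝ} (hC : 1 ≤ C) (hθ : 0 < θ) (hθC : 12000 * C * θ ≤ 1) (hA : 0 < A)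
    (hCA : C * A ≤ 1 / 500) (hθ1 : θ ≤ 1) (ha0 : 0 ≤ a) (ha1 : a ≤ 996 / 1000 * A)
    (hw0 : 0 ≤ w) (hw1 : w ≤ θ * A ^ 2)
    (hK : K ≤ (1 + C * a) * a ^ 3 / 12 + C * w * a + C * w * √w + d) :
    K ≤ A ^ 3 / 12 * (99203 / 100000) + d := by
  have hA3 : 0 < A ^ 3 := by positivity
  have ha3 : a ^ 3 ≤ (996 / 1000) ^ 3 * A ^ 3 := by
    calc a ^ 3 ≤ (996 / 1000 * A) ^ 3 := pow_le_pow_left₀ ha0 ha1 3
      _ = _ := by ring
  have hCa : C * a ≤ 1 / 500 := by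
    have : C * a ≤ C * A := mul_le_mul_of_nonneg_left (by linarith) (by linarith)
    linarith
  have hCθ : C * θ ≤ 1 / 12000 := by linarith
  have hCθA : C * θ * A ^ 3 ≤ 1 / 12000 * A ^ 3 := mul_le_mul_of_nonneg_right hCθ hA3.le
  have hA2 : 0 ≤ A ^ 2 := by positivity
  have hws2 : √w ≤ A := by
    have : w ≤ A ^ 2 := by
      refine hw1.trans ?_
      calc θ * A ^ 2 ≤ 1 * A ^ 2 := mul_le_mul_of_nonneg_right hθ1 hA2
        _ = A ^ 2 := one_mul _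
    calc √w ≤ √(A ^ 2) := Real.sqrt_le_sqrt this
      _ = A := Real.sqrt_sq hA.le
  have t1 : (1 + C * a) * a ^ 3 / 12 ≤ A ^ 3 / 12 * (99003 / 100000) := by
    have h7 : (1 + C * a) * a ^ 3 ≤ (1 + 1 / 500) * ((996 / 1000) ^ 3 * A ^ 3) :=
      mul_le_mul (by linarith) ha3 (by positivity) (by norm_num)
    have h8 : (1 + 1 / 500 : ℝ) * (996 / 1000) ^ 3 ≤ 99003 / 100000 := by norm_num
    have h9 : (1 + 1 / 500) * ((996 / 1000) ^ 3 * A ^ 3) ≤ 99003 / 100000 * A ^ 3 := by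
      rw [← mul_assoc]; exact mul_le_mul_of_nonneg_right h8 hA3.le
    linarith
  have hCw : C * w ≤ C * (θ * A ^ 2) := mul_le_mul_of_nonneg_left hw1 (by linarith)
  have hCw0 : 0 ≤ C * (θ * A ^ 2) := by positivity
  have e : C * (θ * A ^ 2) * A = C * θ * A ^ 3 := by ring
  have t2 : C * w * a ≤ A ^ 3 / 12 * (1 / 1000) := by
    have h7 : C * w * a ≤ C * (θ * A ^ 2) * A := mul_le_mul hCw (by linarith) ha0 hCw0
    rw [e] at h7
    linarith
  have t3 : C * w * √w ≤ A ^ 3 / 12 * (1 / 1000) := by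
    have h7 : C * w * √w ≤ C * (θ * A ^ 2) * A := mul_le_mul hCw hws2 (Real.sqrt_nonneg _) hCw0
    rw [e] at h7
    linarith
  linarith

/-- The numbers of step 2. -/
lemma nums2 {β B κ A ε d θ N : ℝ} (hβ : 0 < β) (hκ : 0 < κ) (hκθ : κ = 12 / β * θ)
    (hκ1 : κ ≤ 1 / 200) (hA : 0 < A) (hA1 : A ≤ 1 / 500) (hθ : 0 < θ) (hN : 0 < N)
    (hε : ε ≤ κ * A ^ 3 / 20000) (hd : d ≤ κ * A ^ 3 / 20000) (hd0 : 0 ≤ d)
    (hN1 : 1 / (4 * β) * (B + 1) * (θ * A ^ 2 / N) ≤ κ * A ^ 3 / 12000) :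
    κ * (A ^ 3 / 12) * (99203 / 100000) + (κ + 1) * d <
      κ * (A ^ 3 / 12) - 2 * ε - 1 / (4 * β) * (1001 / 1000 * A - 995 / 1000 * A) * (θ * A ^ 2) -
        1 / (4 * β) * (B + 995 / 1000 * A) * (θ * A ^ 2 / N) - 2 * d := by
  have hκA : 1 / (4 * β) * (1001 / 1000 * A - 995 / 1000 * A) * (θ * A ^ 2) =
      κ * (A ^ 3 / 12) * (15 / 10000) := by
    rw [hκθ]; field_simp; ring
  have h1 : 1 / (4 * β) * (B + 995 / 1000 * A) * (θ * A ^ 2 / N) ≤ κ * A ^ 3 / 12000 := by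
    refine le_trans ?_ hN1
    refine mul_le_mul_of_nonneg_right ?_ (by positivity)
    refine mul_le_mul_of_nonneg_left ?_ (by positivity)
    linarith
  have h2 : (κ + 1) * d ≤ 2 * (κ * A ^ 3 / 20000) := by
    calc (κ + 1) * d ≤ 2 * d := mul_le_mul_of_nonneg_right (by linarith) hd0
      _ ≤ _ := by linarith
  have h3 : 0 < κ * A ^ 3 := by positivity
  rw [hκA]
  linarith

/-- Step 2: the drop lemma applied at the exponent `1 + κ`. -/
lemma step2 (D : Dat β C B κ A ε S T1 d ψ p) (hβ : 0 < β) (hC : 1 ≤ C) {θ : ℝ} (hθ : 0 < θ)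
    (hθC : 12000 * C * θ ≤ 1) (hκθ : κ = 12 / β * θ) (hκ1 : κ ≤ 1 / 200)
    (hA : 0 < A) (hCA : C * A ≤ 1 / 500) (hθ1 : θ ≤ 1)
    (hε : ε ≤ κ * A ^ 3 / 20000) (hd : d ≤ κ * A ^ 3 / 20000) (hd0 : 0 ≤ d)
    {N : ℕ} (hN : 0 < N) (hN1 : 1 / (4 * β) * (B + 1) * (θ * A ^ 2 / N) ≤ κ * A ^ 3 / 12000)
    (hd1 : d ≤ A / 1000 * (1 / (4 * β) * (θ * A ^ 2 / N))) :
    ψ S (1 + κ) 0 + 1 / (4 * β) * (995 / 1000 * A) * (θ * A ^ 2) ≤ ψ S (1 + κ) (θ * A ^ 2) := by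
  have hκ : 0 < κ := by rw [hκθ]; positivity
  have hA1 : A ≤ 1 / 500 := by
    have : 1 * A ≤ C * A := mul_le_mul_of_nonneg_right hC hA.le
    linarith
  have hws : 0 < θ * A ^ 2 := by positivity
  have hws1 : θ * A ^ 2 ≤ 1 := by
    have : A ^ 2 ≤ 1 := pow_le_one₀ hA.le (by linarith)
    calc θ * A ^ 2 ≤ 1 * 1 := mul_le_mul hθ1 this (by positivity) (by norm_num)
      _ = 1 := by norm_num
  have hsub : ∀ w ∈ Icc 0 (θ * A ^ 2), w ∈ Icc (0 : ℝ) 1 := fun w hw => ⟨hw.1, hw.2.trans hws1⟩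
  have hγ : 0 < 1 / (4 * β) := by positivity
  have hN' : (0 : ℝ) < N := by exact_mod_cast hN
  have s1 := step1 D hβ hκ hκ1 hA hε hd
  have e1 := abs_le.1 D.lk1
  have e2 := abs_le.1 D.lk2
  have e3 := D.hit
  refine drop (m1 := fun w => ψ S 1 w) (m2 := fun w => ψ S (1 + κ) w) (γ := 1 / (4 * β)) (C := B)
    (d := d) (a1 := 1001 / 1000 * A) (a2 := 995 / 1000 * A) (ws := θ * A ^ 2)
    (D0 := κ * (A ^ 3 / 12) - 2 * ε) (R := κ * (A ^ 3 / 12) * (99203 / 100000) + (κ + 1) * d)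
    (N := N) hN hγ hws (by linarith) (by positivity) (fun w hw => s1 w (hsub w hw)) ?_ ?_
    (nums2 hβ hκ hκθ hκ1 hA hA1 hθ hN' hε hd hd0 hN1)
  · intro w hw
    obtain ⟨α, K, h1, h2, h3, h4⟩ := D.inU w (hsub w hw)
    refine ⟨α, h1, fun w' hw' => ?_, fun hα => ?_⟩
    · have := h2 w' (hsub w' hw')
      have e : α / (4 * β) * (w' - w) = 1 / (4 * β) * α * (w' - w) := by ring
      rw [e] at this
      exact this
    · -- the bound of the difference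
      have h5 : d / (1 / (4 * β) * (θ * A ^ 2 / N)) ≤ A / 1000 := by
        rw [div_le_iff₀ (by positivity)]
        exact hd1
      have h6 : α ≤ 996 / 1000 * A := by linarith
      have ha1 : max α 0 ≤ 996 / 1000 * A := max_le h6 (by positivity)
      have hK := bdK hC hθ hθC hA hCA hθ1 (le_max_right α 0) ha1 hw.1 hw.2 h4
      have hKκ : K * κ ≤ (A ^ 3 / 12 * (99203 / 100000) + d) * κ :=
        mul_le_mul_of_nonneg_right hK hκ.le
      show ψ S (1 + κ) w - ψ S 1 w ≤ _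
      linarith
  · show κ * (A ^ 3 / 12) - 2 * ε ≤ ψ S (1 + κ) 0 - ψ S 1 0
    linarith

/-- Step 3: the energy between `T1` and `S`. -/
lemma step3 (D : Dat β C B κ A ε S T1 d ψ p) (hκ : 0 < κ) (hκ1 : κ ≤ 1 / 200)
    (hA : 0 < A) (hε : ε ≤ κ * A ^ 3 / 20000) :
    ψ S (1 + κ) 0 - ψ T1 (1 + κ) 0 ≤ 1985 / 10000 * (A ^ 3 / 12) := by
  have e2 := abs_le.1 D.lk2
  have e3 := D.hit
  have e4 := D.lk0
  have hA3 : 0 < A ^ 3 := by positivity
  have h1 := chain (p := p) (q := A ^ 3 / 12) hκ hκ1 (by positivity) D.mon D.low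
  have h2 : κ * A ^ 3 ≤ 1 / 200 * A ^ 3 := mul_le_mul_of_nonneg_right hκ1 hA3.le
  linarith

/-- Step 4a: upper bounds along the window. -/
lemma step4a (D : Dat β C B κ A ε S T1 d ψ p) (hκ : 0 < κ) (hκ1 : κ ≤ 1 / 200)
    (hA : 0 < A) (hε : ε ≤ κ * A ^ 3 / 20000) (hd0 : 0 ≤ d) (hT : 0 ≤ T1) {s : ℝ}
    (hs : s ∈ Icc T1 S) :
    ψ s (1 + κ) 0 ≤ ψ S (1 + κ) 0 + d * (S - s) + d ∧
    ψ S (1 + κ) 0 - ψ s (1 + κ) 0 ≤ 1985 / 10000 * (A ^ 3 / 12) + d * (S + 1) := by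
  have hG := Gc_lo hκ.le hκ1
  have hTS : T1 ≤ S := hs.1.trans hs.2
  have h0 : (0 : ℝ) ∈ Icc (0 : ℝ) 1 := ⟨le_rfl, zero_le_one⟩
  constructor
  · obtain ⟨θ, α, -, h2, h3, -⟩ := D.crs S ⟨hTS, le_rfl⟩ 0 h0
    have h4 := h2 s hs
    have h5 : 0 ≤ θ + d := le_trans (by positivity) h3
    have h6 : θ * (s - S) ≤ d * (S - s) := by nlinarith [hs.2]
    linarith
  · obtain ⟨θ, α, -, h2, h3, -⟩ := D.crs s hs 0 h0
    have h4 := h2 T1 ⟨le_rfl, hTS⟩
    have h5 : 0 ≤ θ + d := le_trans (by positivity) h3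
    have h6 : θ * (T1 - s) ≤ d * (s - T1) := by nlinarith [hs.1]
    have h7 := step3 D hκ hκ1 hA hε
    have h8 : d * (s - T1) ≤ d * S := mul_le_mul_of_nonneg_left (by linarith [hs.2]) hd0
    linarith

/-- Step 4b: the slopes. -/
lemma step4b (D : Dat β C B κ A ε S T1 d ψ p) (hβ : 0 < β) (hC : 1 ≤ C) {θ : ℝ} (hθ : 0 < θ)
    (hκ : 0 < κ) (hκ1 : κ ≤ 1 / 200) (hA : 0 < A) (hA1 : A ≤ 1 / 500)
    (hCA : 9 * (C * A) ≤ 1) (hws1 : θ * A ^ 2 ≤ 1)
    (hε : ε ≤ κ * A ^ 3 / 20000) (hd0 : 0 ≤ d) (hT : 0 ≤ T1)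
    (hd1 : d * (S + 2) ≤ 15 / 10000 * (A ^ 3 / 12)) (hd2 : d ≤ A ^ 2 / 10)
    (hη : 2 * d / (1 / (4 * β) * (θ * A ^ 2)) ≤ A) {s : ℝ} (hs : s ∈ Icc T1 S)
    (hsT : A / 200 ≤ s - T1) :
    ∃ θ0 θ1 α0 : ℝ, θ0 ≤ 10 / 3 * A ^ 2 ∧
      (∀ s' ∈ Icc T1 S, ψ s' (1 + κ) 0 ≤ ψ s (1 + κ) 0 + θ0 * (s' - s) + d) ∧
      (∀ s' ∈ Icc T1 S, ψ s' (1 + κ) (θ * A ^ 2) ≤ ψ s (1 + κ) (θ * A ^ 2) + θ1 * (s' - s) + d) ∧
      θ1 ≤ (1 + 9 * (C * A)) * θ0 +
        (3 * d + 4 * A * (2 * d / (1 / (4 * β) * (θ * A ^ 2)))) ∧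
      ψ s (1 + κ) (θ * A ^ 2) ≤ ψ s (1 + κ) 0 + 1 / (4 * β) * α0 * (θ * A ^ 2) + d ∧
      Gc (1 + κ) * (max (α0 - s) 0) ^ 2 ≤ θ0 + d := by
  have hG := Gc_lo hκ.le hκ1
  have hG2 := Gc_hi hκ.le hκ1
  have hTS : T1 ≤ S := hs.1.trans hs.2
  have hws : 0 < θ * A ^ 2 := by positivity
  have hγ : 0 < 1 / (4 * β) := by positivity
  have h0 : (0 : ℝ) ∈ Icc (0 : ℝ) 1 := ⟨le_rfl, zero_le_one⟩
  have hw : θ * A ^ 2 ∈ Icc (0 : ℝ) 1 := ⟨hws.le, hws1⟩
  obtain ⟨θ0, α0, a1, a2, a3, -⟩ := D.crs s hs 0 h0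
  obtain ⟨θ1, α1, b1, b2, -, b4⟩ := D.crs s hs _ hw
  set η : ℝ := 2 * d / (1 / (4 * β) * (θ * A ^ 2)) with hηdef
  have hη0 : 0 ≤ η := by positivity
  -- the bound of `θ0`
  have h1 := (step4a D hκ hκ1 hA hε hd0 hT hs).1
  have h2 := step3 D hκ hκ1 hA hε
  have h3 := a2 T1 ⟨le_rfl, hTS⟩
  have h4 : θ0 * (s - T1) ≤ 1985 / 10000 * (A ^ 3 / 12) + d * (S + 2) := by
    have : d * (S - s) + 2 * d ≤ d * (S + 2) := by nlinarith [hs.1]
    nlinarith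
  have hA3 : 0 < A ^ 3 := by positivity
  have h5 : θ0 ≤ 10 / 3 * A ^ 2 := by
    by_contra hcon
    push Not at hcon
    have hA2 : 0 < A ^ 2 := by positivity
    have h6 : 10 / 3 * A ^ 2 * (A / 200) < θ0 * (s - T1) := by
      have h7 : 10 / 3 * A ^ 2 * (A / 200) < θ0 * (A / 200) :=
        mul_lt_mul_of_pos_right hcon (by positivity)
      have h8 : θ0 * (A / 200) ≤ θ0 * (s - T1) :=
        mul_le_mul_of_nonneg_left hsT (by linarith)
      linarith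
    have h9 : 10 / 3 * A ^ 2 * (A / 200) = 2000 / 10000 * (A ^ 3 / 12) := by ring
    rw [h9] at h6
    linarith
  -- the bound of `x0`
  set x0 : ℝ := max (α0 - s) 0 with hx0
  have hx00 : 0 ≤ x0 := le_max_right _ _
  have h6 : x0 ≤ 8 * A := by
    refine le_of_pow_le_pow_left₀ (n := 2) (by norm_num) (by positivity) ?_
    have h7 : 55 / 1000 * x0 ^ 2 ≤ Gc (1 + κ) * x0 ^ 2 :=
      mul_le_mul_of_nonneg_right hG (by positivity)
    have h8 : (8 * A) ^ 2 = 64 * A ^ 2 := by ring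
    rw [h8]
    have hA2 : 0 < A ^ 2 := by positivity
    linarith
  -- comparison of the responses
  have h7 := a1 _ hw
  have h8 := b1 0 h0
  have e7 : α0 / (4 * β) * (θ * A ^ 2 - 0) = 1 / (4 * β) * α0 * (θ * A ^ 2) := by ring
  have e8 : α1 / (4 * β) * (0 - θ * A ^ 2) = -(α1 * (1 / (4 * β) * (θ * A ^ 2))) := by ring
  rw [e7] at h7
  rw [e8] at h8
  have hp : 0 < 1 / (4 * β) * (θ * A ^ 2) := by positivity
  have h9 : α1 ≤ α0 + η := by
    have h10 : α1 * (1 / (4 * β) * (θ * A ^ 2)) ≤ (α0 + η) * (1 / (4 * β) * (θ * A ^ 2)) := by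
      have : η * (1 / (4 * β) * (θ * A ^ 2)) = 2 * d := by
        rw [hηdef]; exact div_mul_cancel₀ _ hp.ne'
      rw [add_mul, this]
      have : α0 * (1 / (4 * β) * (θ * A ^ 2)) = 1 / (4 * β) * α0 * (θ * A ^ 2) := by ring
      rw [this]
      linarith
    exact le_of_mul_le_mul_right h10 hp
  set x1 : ℝ := max (α1 - s) 0 with hx1
  have hx10 : 0 ≤ x1 := le_max_right _ _
  have h10 : x1 ≤ x0 + η := by
    refine max_le ?_ (by linarith)
    have : α0 - s ≤ x0 := le_max_left _ _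
    linarith
  have h11 : x1 ≤ 9 * A := by linarith
  have h12 : x1 ^ 2 ≤ x0 ^ 2 + η * (17 * A) := by
    have h13 : x1 ^ 2 ≤ (x0 + η) ^ 2 := pow_le_pow_left₀ hx10 h10 2
    have h14 : (x0 + η) ^ 2 = x0 ^ 2 + η * (2 * x0 + η) := by ring
    rw [h14] at h13
    have h15 : η * (2 * x0 + η) ≤ η * (17 * A) := mul_le_mul_of_nonneg_left (by linarith) hη0
    linarith
  have h13 : Gc (1 + κ) * x1 ^ 2 ≤ θ0 + d + 2 * A * η := by
    have h14 : Gc (1 + κ) * x1 ^ 2 ≤ Gc (1 + κ) * (x0 ^ 2 + η * (17 * A)) :=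
      mul_le_mul_of_nonneg_left h12 (by linarith)
    have h15 : Gc (1 + κ) * (η * (17 * A)) ≤ 6 / 100 * (η * (17 * A)) :=
      mul_le_mul_of_nonneg_right hG2 (by positivity)
    have h16 : 0 ≤ A * η := by positivity
    rw [mul_add] at h14
    linarith
  have h14 : θ1 ≤ (1 + 9 * (C * A)) * θ0 + (3 * d + 4 * A * η) := by
    have hCx : C * x1 ≤ 9 * (C * A) := by
      calc C * x1 ≤ C * (9 * A) := mul_le_mul_of_nonneg_left h11 (by linarith)
        _ = 9 * (C * A) := by ring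
    have hGx : 0 ≤ Gc (1 + κ) * x1 ^ 2 := by positivity
    have h15 : (1 + C * x1) * (Gc (1 + κ) * x1 ^ 2) ≤
        (1 + 9 * (C * A)) * (Gc (1 + κ) * x1 ^ 2) :=
      mul_le_mul_of_nonneg_right (by linarith) hGx
    have hCA0 : 0 ≤ C * A := by positivity
    have h16 : (1 + 9 * (C * A)) * (Gc (1 + κ) * x1 ^ 2) ≤
        (1 + 9 * (C * A)) * (θ0 + d + 2 * A * η) :=
      mul_le_mul_of_nonneg_left h13 (by linarith)
    have h17 : (1 + 9 * (C * A)) * (d + 2 * A * η) ≤ 2 * (d + 2 * A * η) :=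
      mul_le_mul_of_nonneg_right (by linarith) (by positivity)
    have h18 : (1 + 9 * (C * A)) * (θ0 + d + 2 * A * η) =
        (1 + 9 * (C * A)) * θ0 + (1 + 9 * (C * A)) * (d + 2 * A * η) := by ring
    linarith
  refine ⟨θ0, θ1, α0, h5, a2, b2, h14, h7, a3⟩

/-- Step 5: the mean response at every share of the window. -/
lemma step5 (D : Dat β C B κ A ε S T1 d ψ p) (hβ : 0 < β) (hC : 1 ≤ C) {θ : ℝ} (hθ : 0 < θ)
    (hκ : 0 < κ) (hκ1 : κ ≤ 1 / 200) (hA : 0 < A) (hA1 : A ≤ 1 / 500)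
    (hCA : 9 * (C * A) ≤ 1) (hCA2 : C * A ≤ 1 / (4 * β) * θ / 50) (hws1 : θ * A ^ 2 ≤ 1)
    (hε : ε ≤ κ * A ^ 3 / 20000) (hd0 : 0 ≤ d) (hT : 0 ≤ T1)
    (hd1 : d * (S + 2) ≤ 15 / 10000 * (A ^ 3 / 12)) (hd2 : d ≤ A ^ 2 / 10)
    (hη : 2 * d / (1 / (4 * β) * (θ * A ^ 2)) ≤ A)
    (s2 : ψ S (1 + κ) 0 + 1 / (4 * β) * (995 / 1000 * A) * (θ * A ^ 2) ≤
      ψ S (1 + κ) (θ * A ^ 2))
    {a h : ℝ} {n N : ℕ} (hh : 0 ≤ h) (hh1 : h ≤ 1) (hnN : n ≤ N)
    (ha : T1 + A / 200 ≤ a - h) (haS : a + n * h = S) (hS : n * h ≤ S)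
    (he1 : 20 / 3 * A ^ 2 * h ≤ 1 / (4 * β) * θ * A ^ 3 / 2000)
    (he2 : 7 * d + S * (3 * d + 4 * A * (2 * d / (1 / (4 * β) * (θ * A ^ 2)))) + 3 * N * d ≤
      1 / (4 * β) * θ * A ^ 3 / 1000) :
    ψ a (1 + κ) 0 + 1 / (4 * β) * (99 / 100 * A) * (θ * A ^ 2) + d ≤
      ψ a (1 + κ) (θ * A ^ 2) := by
  have hn0 : (0 : ℝ) ≤ n := Nat.cast_nonneg n
  have hnh : 0 ≤ (n : ℝ) * h := mul_nonneg hn0 hh
  have haS' : a ≤ S := by linarith
  have hA2 : 0 < A / 200 := by positivity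
  have hCA0 : 0 < C * A := by positivity
  set e' : ℝ := 3 * d + 4 * A * (2 * d / (1 / (4 * β) * (θ * A ^ 2))) with he'
  have he'0 : 0 ≤ e' := by positivity
  have hmem : ∀ i : ℕ, i ≤ n → a + i * h ∈ Icc T1 S ∧ A / 200 ≤ a + i * h - T1 := by
    intro i hi
    have hi0 : (0 : ℝ) ≤ i := Nat.cast_nonneg i
    have hi1 : (i : ℝ) ≤ n := by exact_mod_cast hi
    have h1 : 0 ≤ (i : ℝ) * h := mul_nonneg hi0 hh
    have h2 : (i : ℝ) * h ≤ n * h := mul_le_mul_of_nonneg_right hi1 hh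
    refine ⟨⟨by linarith, by linarith⟩, by linarith⟩
  have hmono := mono (F0 := fun s => ψ s (1 + κ) 0) (F1 := fun s => ψ s (1 + κ) (θ * A ^ 2))
    (a := a) (h := h) (r := 9 * (C * A)) (e := e') (d := d) hh (by positivity) (n := n) (by
      intro i hi
      obtain ⟨m1, m2⟩ := hmem i hi.le
      obtain ⟨m3, -⟩ := hmem (i + 1) hi
      obtain ⟨θ0, θ1, α0, -, k2, k3, k4, -, -⟩ :=
        step4b D hβ hC hθ hκ hκ1 hA hA1 hCA hws1 hε hd0 hT hd1 hd2 hη m1 m2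
      refine ⟨θ0, θ1, ?_, ?_, k4⟩
      · have := k3 _ m3
        push_cast at this
        have e : θ1 * (a + (i + 1) * h - (a + i * h)) = θ1 * h := by ring
        rw [e] at this
        exact this
      · have hmem' : a + i * h - h ∈ Icc T1 S := by
          have hi0 : (0 : ℝ) ≤ i := Nat.cast_nonneg i
          have h1 : 0 ≤ (i : ℝ) * h := mul_nonneg hi0 hh
          exact ⟨by linarith, by linarith [m1.2]⟩
        have := k2 _ hmem'
        have e : θ0 * (a + i * h - h - (a + i * h)) = -(θ0 * h) := by ring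
        rw [e] at this
        show ψ (a + i * h - h) (1 + κ) 0 ≤ ψ (a + i * h) (1 + κ) 0 - θ0 * h + d
        linarith)
  simp only [haS] at hmono
  -- the two ends
  have hSh : S - h ∈ Icc T1 S := ⟨by linarith, by linarith⟩
  have hE1 := (step4a D hκ hκ1 hA hε hd0 hT hSh).1
  have hE2 := (step4a D hκ hκ1 hA hε hd0 hT (s := a) ⟨by linarith, haS'⟩).2
  have hE3 : ψ a (1 + κ) 0 ≤ ψ (a - h) (1 + κ) 0 + 10 / 3 * A ^ 2 * h + d := by
    obtain ⟨θ0, -, -, k1, k2, -, -, -, -⟩ :=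
      step4b D hβ hC hθ hκ hκ1 hA hA1 hCA hws1 hε hd0 hT hd1 hd2 hη (s := a - h)
        ⟨by linarith, by linarith⟩ (by linarith)
    have := k2 a ⟨by linarith, haS'⟩
    have e : θ0 * (a - (a - h)) = θ0 * h := by ring
    rw [e] at this
    have := mul_le_mul_of_nonneg_right k1 hh
    linarith
  have hdh : d * h ≤ d := by
    calc d * h ≤ d * 1 := mul_le_mul_of_nonneg_left hh1 hd0
      _ = d := mul_one d
  have hE4 : ψ (S - h) (1 + κ) 0 - ψ (a - h) (1 + κ) 0 ≤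
      (ψ S (1 + κ) 0 - ψ a (1 + κ) 0) + (10 / 3 * A ^ 2 * h + 3 * d) := by
    have e : S - (S - h) = h := by ring
    rw [e] at hE1
    linarith
  have hr1 : (1 + 9 * (C * A)) * (ψ (S - h) (1 + κ) 0 - ψ (a - h) (1 + κ) 0) ≤
      (ψ S (1 + κ) 0 - ψ a (1 + κ) 0) + 9 * (C * A) * (2000 / 10000 * (A ^ 3 / 12)) +
        2 * (10 / 3 * A ^ 2 * h + 3 * d) := by
    have k1 := mul_le_mul_of_nonneg_left hE4 (show 0 ≤ 1 + 9 * (C * A) by linarith)
    have k2 : 9 * (C * A) * (ψ S (1 + κ) 0 - ψ a (1 + κ) 0) ≤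
        9 * (C * A) * (2000 / 10000 * (A ^ 3 / 12)) := by
      refine mul_le_mul_of_nonneg_left ?_ (by linarith)
      have : d * (S + 1) ≤ d * (S + 2) := mul_le_mul_of_nonneg_left (by linarith) hd0
      linarith
    have k3 : (1 + 9 * (C * A)) * (10 / 3 * A ^ 2 * h + 3 * d) ≤
        2 * (10 / 3 * A ^ 2 * h + 3 * d) :=
      mul_le_mul_of_nonneg_right (by linarith) (by positivity)
    have k4 : (1 + 9 * (C * A)) * ((ψ S (1 + κ) 0 - ψ a (1 + κ) 0) +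
        (10 / 3 * A ^ 2 * h + 3 * d)) = (ψ S (1 + κ) 0 - ψ a (1 + κ) 0) +
        9 * (C * A) * (ψ S (1 + κ) 0 - ψ a (1 + κ) 0) +
        (1 + 9 * (C * A)) * (10 / 3 * A ^ 2 * h + 3 * d) := by ring
    rw [k4] at k1
    linarith
  have hr2 : (n : ℝ) * (e' * h + (2 + 9 * (C * A)) * d) ≤ S * e' + 3 * N * d := by
    have k1 : (n : ℝ) * (e' * h) ≤ S * e' := by
      calc (n : ℝ) * (e' * h) = (n * h) * e' := by ring
        _ ≤ S * e' := mul_le_mul_of_nonneg_right hS he'0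
    have k2 : (n : ℝ) * ((2 + 9 * (C * A)) * d) ≤ N * (3 * d) := by
      have k3 : (n : ℝ) ≤ N := by exact_mod_cast hnN
      have k4 : (2 + 9 * (C * A)) * d ≤ 3 * d := mul_le_mul_of_nonneg_right (by linarith) hd0
      exact mul_le_mul k3 k4 (by positivity) (by linarith)
    have k5 : (n : ℝ) * (e' * h + (2 + 9 * (C * A)) * d) =
      n * (e' * h) + n * ((2 + 9 * (C * A)) * d) := by ring
    have k6 : (N : ℝ) * (3 * d) = 3 * N * d := by ring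
    rw [k5]
    linarith
  have hr3 : 9 * (C * A) * (2000 / 10000 * (A ^ 3 / 12)) ≤
      1 / (4 * β) * θ * A ^ 3 * (3 / 1000) := by
    have hA3 : 0 < A ^ 3 := by positivity
    have k1 : 9 * (C * A) * (2000 / 10000 * (A ^ 3 / 12)) = (C * A) * (A ^ 3 * (15 / 100)) := by
      ring
    rw [k1]
    have k2 := mul_le_mul_of_nonneg_right hCA2 (show 0 ≤ A ^ 3 * (15 / 100) by positivity)
    refine k2.trans (le_of_eq ?_)
    ring
  have hfin : 1 / (4 * β) * (995 / 1000 * A) * (θ * A ^ 2) -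
      1 / (4 * β) * (99 / 100 * A) * (θ * A ^ 2) = 1 / (4 * β) * θ * A ^ 3 * (5 / 1000) := by ring
  have hμ : 0 < 1 / (4 * β) * θ * A ^ 3 := by positivity
  linarith

/-- The numbers of step 6. -/
lemma nums6 {A G h d N S s0 D0 : ℝ} (hG : 55 / 1000 ≤ G) (hG2 : G ≤ 6 / 100) (hA : 0 < A)
    (hN : 0 < N) (hh : 0 ≤ h) (hh1 : h ≤ 1) (hd0 : 0 ≤ d) (hNh : N * h = S - s0)
    (hSh : (S - s0) * h ≤ A ^ 2 / 400)
    (he3 : d * (S + 1) + 2 * N * d ≤ A ^ 3 / 10000)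
    (h1 : G / 3 * (98 / 100 * A) ^ 3 ≤ D0 + N * (2 * G * h ^ 2 * A + d * h + d))
    (h2 : D0 ≤ 1985 / 10000 * (A ^ 3 / 12) + d * (S + 1)) : False := by
  have hA3 : 0 < A ^ 3 := by positivity
  have k1 : (941 / 1000 * (55 / 1000) / 3) * A ^ 3 ≤ G / 3 * (98 / 100 * A) ^ 3 := by
    have e : G / 3 * (98 / 100 * A) ^ 3 = (G * ((98 / 100) ^ 3 / 3)) * A ^ 3 := by ring
    rw [e]
    refine mul_le_mul_of_nonneg_right ?_ hA3.le
    have h3 : (55 / 1000 : ℝ) * ((98 / 100) ^ 3 / 3) ≤ G * ((98 / 100) ^ 3 / 3) :=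
      mul_le_mul_of_nonneg_right hG (by norm_num)
    refine le_trans ?_ h3
    norm_num
  have k2 : N * (2 * G * h ^ 2 * A) ≤ 3 / 10000 * A ^ 3 := by
    have e : N * (2 * G * h ^ 2 * A) = (2 * A) * G * ((N * h) * h) := by ring
    rw [e, hNh]
    have h3 : (2 * A) * G ≤ (2 * A) * (6 / 100) := mul_le_mul_of_nonneg_left hG2 (by positivity)
    have hSh0 : 0 ≤ (S - s0) * h := by rw [← hNh]; positivity
    have h4 : (2 * A) * G * ((S - s0) * h) ≤ (2 * A) * (6 / 100) * (A ^ 2 / 400) :=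
      mul_le_mul h3 hSh hSh0 (by positivity)
    refine h4.trans (le_of_eq ?_)
    ring
  have k3 : N * (d * h) ≤ N * d := by
    refine mul_le_mul_of_nonneg_left ?_ hN.le
    calc d * h ≤ d * 1 := mul_le_mul_of_nonneg_left hh1 hd0
      _ = d := mul_one d
  have k4 : N * (2 * G * h ^ 2 * A + d * h + d) =
      N * (2 * G * h ^ 2 * A) + N * (d * h) + N * d := by ring
  rw [k4] at h1
  linarith

/-- Step 6: the contradiction. -/
lemma step6 (D : Dat β C B κ A ε S T1 d ψ p) (hβ : 0 < β) (hC : 1 ≤ C) {θ : ℝ} (hθ : 0 < θ)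
    (hκ : 0 < κ) (hκ1 : κ ≤ 1 / 200) (hA : 0 < A) (hA1 : A ≤ 1 / 500)
    (hCA : 9 * (C * A) ≤ 1) (hCA2 : C * A ≤ 1 / (4 * β) * θ / 50) (hws1 : θ * A ^ 2 ≤ 1)
    (hε : ε ≤ κ * A ^ 3 / 20000) (hd0 : 0 ≤ d) (hT : 0 ≤ T1) (hT1 : T1 ≤ A / 400) (hS1 : 1 ≤ S)
    (hd1 : d * (S + 2) ≤ 15 / 10000 * (A ^ 3 / 12)) (hd2 : d ≤ A ^ 2 / 10)
    (hη : 2 * d / (1 / (4 * β) * (θ * A ^ 2)) ≤ A)
    (s2 : ψ S (1 + κ) 0 + 1 / (4 * β) * (995 / 1000 * A) * (θ * A ^ 2) ≤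
      ψ S (1 + κ) (θ * A ^ 2))
    {N : ℕ} (hN : 0 < N) (hN1 : S / N ≤ A / 400)
    (hN2 : 20 / 3 * A ^ 2 * (S / N) ≤ 1 / (4 * β) * θ * A ^ 3 / 2000)
    (hN3 : S * (S / N) ≤ A ^ 2 / 400)
    (he2 : 7 * d + S * (3 * d + 4 * A * (2 * d / (1 / (4 * β) * (θ * A ^ 2)))) + 3 * N * d ≤
      1 / (4 * β) * θ * A ^ 3 / 1000)
    (he3 : d * (S + 1) + 2 * N * d ≤ A ^ 3 / 10000) : False := by
  have hN' : (0 : ℝ) < N := by exact_mod_cast hN
  have hG := Gc_lo hκ.le hκ1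
  have hG2 := Gc_hi hκ.le hκ1
  have hws : 0 < θ * A ^ 2 := by positivity
  have hp : 0 < 1 / (4 * β) * (θ * A ^ 2) := by positivity
  set s0 : ℝ := A / 100 with hs0
  set h : ℝ := (S - s0) / N with hh
  have hSs : 0 < S - s0 := by rw [hs0]; linarith
  have hhpos : 0 < h := div_pos hSs hN'
  have hNh : (N : ℝ) * h = S - s0 := by rw [hh]; field_simp
  have hhle : h ≤ S / N := by
    rw [hh]
    exact div_le_div_of_nonneg_right (by rw [hs0]; linarith) hN'.le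
  have hh4 : h ≤ A / 400 := hhle.trans hN1
  have hhe : 20 / 3 * A ^ 2 * h ≤ 1 / (4 * β) * θ * A ^ 3 / 2000 :=
    le_trans (mul_le_mul_of_nonneg_left hhle (by positivity)) hN2
  -- the response at every grid point
  have hresp : ∀ i : ℕ, i < N →
      ψ (s0 + (i + 1) * h) (1 + κ) 0 + 1 / (4 * β) * (99 / 100 * A) * (θ * A ^ 2) + d ≤
        ψ (s0 + (i + 1) * h) (1 + κ) (θ * A ^ 2) := by
    intro i hi
    have hi0 : (0 : ℝ) ≤ i := Nat.cast_nonneg i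
    have hi1 : ((i + 1 : ℕ) : ℝ) ≤ N := by exact_mod_cast hi
    have hsub : ((N - (i + 1) : ℕ) : ℝ) = N - (i + 1) := by
      rw [Nat.cast_sub hi]; push_cast; ring
    have hih : 0 ≤ (i : ℝ) * h := by positivity
    refine step5 D hβ hC hθ hκ hκ1 hA hA1 hCA hCA2 hws1 hε hd0 hT hd1 hd2 hη s2
      (a := s0 + (i + 1) * h) (h := h) (n := N - (i + 1)) (N := N) hhpos.le (by linarith)
      (Nat.sub_le _ _) ?_ ?_ ?_ hhe he2
    · have : s0 + (i + 1) * h - h = s0 + i * h := by ring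
      rw [this, hs0]; linarith
    · rw [hsub]
      linarith
    · rw [hsub]
      have : (0 : ℝ) ≤ (i + 1) * h := by positivity
      have h2 : (↑N - (↑i + 1)) * h = S - s0 - (i + 1) * h := by rw [sub_mul, hNh]
      rw [h2, hs0]
      linarith
  have henergy := energy (F0 := fun s => ψ s (1 + κ) 0) (a := s0) (h := h) (G := Gc (1 + κ))
    (a4 := 99 / 100 * A) (d := d) (M := A) hhpos.le (by linarith) hA.le (by rw [hs0]; linarith)
    (n := N) (by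
      intro i hi
      have hi0 : (0 : ℝ) ≤ i := Nat.cast_nonneg i
      have hi1 : ((i : ℝ) + 1) ≤ N := by exact_mod_cast hi
      have hih : 0 ≤ (i : ℝ) * h := by positivity
      have hih2 : ((i : ℝ) + 1) * h ≤ N * h := mul_le_mul_of_nonneg_right hi1 hhpos.le
      have hmem : s0 + (i + 1) * h ∈ Icc T1 S := by
        refine ⟨?_, by linarith⟩
        rw [hs0]
        have : (0 : ℝ) ≤ (i + 1) * h := by positivity
        linarith
      have hmem' : s0 + i * h ∈ Icc T1 S := ⟨by rw [hs0]; linarith, by nlinarith⟩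
      have hmT : A / 200 ≤ s0 + (i + 1) * h - T1 := by
        rw [hs0]
        have : (0 : ℝ) ≤ (i + 1) * h := by positivity
        linarith
      obtain ⟨θ0, -, α0, -, k2, -, -, k5, k6⟩ :=
        step4b D hβ hC hθ hκ hκ1 hA hA1 hCA hws1 hε hd0 hT hd1 hd2 hη hmem hmT
      refine ⟨θ0, ?_, ?_⟩
      · have := k2 _ hmem'
        have e : θ0 * (s0 + i * h - (s0 + (i + 1) * h)) = -(θ0 * h) := by ring
        rw [e] at this
        show ψ (s0 + i * h) (1 + κ) 0 ≤ ψ (s0 + (i + 1) * h) (1 + κ) 0 - θ0 * h + d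
        linarith
      · have hr := hresp i hi
        have h1 : 99 / 100 * A ≤ α0 := by
          have h2 : 99 / 100 * A * (1 / (4 * β) * (θ * A ^ 2)) ≤
              α0 * (1 / (4 * β) * (θ * A ^ 2)) := by
            have e1 : 1 / (4 * β) * (99 / 100 * A) * (θ * A ^ 2) =
              99 / 100 * A * (1 / (4 * β) * (θ * A ^ 2)) := by ring
            have e2 : 1 / (4 * β) * α0 * (θ * A ^ 2) = α0 * (1 / (4 * β) * (θ * A ^ 2)) := by ring
            rw [e1] at hr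
            rw [e2] at k5
            linarith
          exact le_of_mul_le_mul_right h2 hp
        refine le_trans ?_ k6
        refine mul_le_mul_of_nonneg_left ?_ (by linarith)
        refine pow_le_pow_left₀ (le_max_right _ _) ?_ 2
        exact max_le_max (by linarith) le_rfl)
  have e1 : s0 + N * h = S := by linarith
  simp only [e1] at henergy
  have e2 : max (99 / 100 * A - S) 0 = 0 := max_eq_right (by linarith)
  have e3 : max (99 / 100 * A - s0) 0 = 98 / 100 * A := by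
    rw [hs0]
    have : 99 / 100 * A - A / 100 = 98 / 100 * A := by ring
    rw [this]
    exact max_eq_left (by positivity)
  rw [e2, e3] at henergy
  have hE2 := (step4a D hκ hκ1 hA hε hd0 hT (s := s0) ⟨by rw [hs0]; linarith, by linarith⟩).2
  have k5 : Gc (1 + κ) / 3 * (0 : ℝ) ^ 3 = 0 := by ring
  rw [k5] at henergy
  have hSh : (S - s0) * h ≤ A ^ 2 / 400 :=
    le_trans (mul_le_mul (by rw [hs0]; linarith) hhle hhpos.le (by linarith)) hN3
  exact nums6 hG hG2 hA hN' hhpos.le (by linarith) hd0 hNh hSh he3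
    (D0 := ψ S (1 + κ) 0 - ψ s0 (1 + κ) 0) (by linarith) hE2

end steps

open Filter Topology

/-- **The unit-scale flow theorem.**  For a small window `κ` and a small value `A`, the rows and
the link with the zero-field pure laws are contradictory. -/
theorem f1 {β C : ℝ} (hβ : 0 < β) (hC : 1 ≤ C) :
    ∃ κ : ℝ, 0 < κ ∧ κ ≤ 1 / 200 ∧ ∃ Ab : ℝ, 0 < Ab ∧ ∀ A : ℝ, 0 < A → A ≤ Ab →
      ∃ ε₀ : ℝ, 0 < ε₀ ∧ ∀ B S T1 : ℝ, 0 ≤ B → 1 ≤ S → 0 ≤ T1 → T1 ≤ ε₀ → ∃ d₀ : ℝ, 0 < d₀ ∧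
        ∀ ε d : ℝ, ε ≤ ε₀ → 0 ≤ d → d ≤ d₀ → ∀ (ψ : ℝ → ℝ → ℝ → ℝ) (p : ℝ → ℝ),
          ¬ Dat β C B κ A ε S T1 d ψ p := by
  have hγ : 0 < 1 / (4 * β) := by positivity
  have hC0 : 0 < C := by linarith
  set θ : ℝ := min (1 / (12000 * C)) (β / 2400) with hθdef
  have hθ : 0 < θ := lt_min (by positivity) (by positivity)
  have hθ1 : θ ≤ 1 / (12000 * C) := min_le_left _ _
  have hθ2 : θ ≤ β / 2400 := min_le_right _ _
  have hθC : 12000 * C * θ ≤ 1 := by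
    have := mul_le_mul_of_nonneg_left hθ1 (show 0 ≤ 12000 * C by positivity)
    rwa [mul_one_div_cancel (by positivity)] at this
  have hθle : θ ≤ 1 := by
    have : 12000 * 1 * θ ≤ 12000 * C * θ :=
      mul_le_mul_of_nonneg_right (by linarith) hθ.le
    linarith
  refine ⟨12 / β * θ, by positivity, ?_, min (1 / (500 * C)) (1 / (4 * β) * θ / (50 * C)),
    lt_min (by positivity) (by positivity), ?_⟩
  · have := mul_le_mul_of_nonneg_left hθ2 (show 0 ≤ 12 / β by positivity)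
    refine this.trans (le_of_eq ?_)
    field_simp; norm_num
  intro A hA hAb
  set κ : ℝ := 12 / β * θ with hκdef
  have hκ : 0 < κ := by positivity
  have hκ1 : κ ≤ 1 / 200 := by
    have := mul_le_mul_of_nonneg_left hθ2 (show 0 ≤ 12 / β by positivity)
    refine this.trans (le_of_eq ?_)
    field_simp; norm_num
  have hCA : C * A ≤ 1 / 500 := by
    have h1 := hAb.trans (min_le_left _ _)
    have := mul_le_mul_of_nonneg_left h1 hC0.le
    refine this.trans (le_of_eq ?_)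
    field_simp
  have hCA2 : C * A ≤ 1 / (4 * β) * θ / 50 := by
    have h1 := hAb.trans (min_le_right _ _)
    have := mul_le_mul_of_nonneg_left h1 hC0.le
    refine this.trans (le_of_eq ?_)
    field_simp
  have hA1 : A ≤ 1 / 500 := by
    have : 1 * A ≤ C * A := mul_le_mul_of_nonneg_right hC hA.le
    linarith
  have hws1 : θ * A ^ 2 ≤ 1 := by
    have : A ^ 2 ≤ 1 := pow_le_one₀ hA.le (by linarith)
    calc θ * A ^ 2 ≤ 1 * 1 := mul_le_mul hθle this (by positivity) (by norm_num)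
      _ = 1 := by norm_num
  have hws : 0 < θ * A ^ 2 := by positivity
  refine ⟨min (κ * A ^ 3 / 20000) (A / 400), lt_min (by positivity) (by positivity), ?_⟩
  intro B S T1 hB hS hT hTε
  have hT1 : T1 ≤ A / 400 := hTε.trans (min_le_right _ _)
  have hS0 : 0 < S := by linarith
  -- the grids
  obtain ⟨Nw, hNw⟩ := exists_nat_gt
    (1 / (4 * β) * (B + 1) * (θ * A ^ 2) / (κ * A ^ 3 / 12000))
  have hNw0 : (0 : ℝ) < Nw := lt_of_le_of_lt (by positivity) hNw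
  have hNwpos : 0 < Nw := by exact_mod_cast hNw0
  have hN1 : 1 / (4 * β) * (B + 1) * (θ * A ^ 2 / Nw) ≤ κ * A ^ 3 / 12000 := by
    rw [div_lt_iff₀ (by positivity)] at hNw
    have : 1 / (4 * β) * (B + 1) * (θ * A ^ 2 / Nw) =
      1 / (4 * β) * (B + 1) * (θ * A ^ 2) / Nw := by ring
    rw [this, div_le_iff₀ hNw0]
    linarith
  set μ : ℝ := min (A / 400) (min (1 / (4 * β) * θ * A ^ 3 / 2000 / (20 / 3 * A ^ 2))
    (A ^ 2 / 400 / S)) with hμ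
  have hμ0 : 0 < μ := lt_min (by positivity) (lt_min (by positivity) (by positivity))
  obtain ⟨N, hN⟩ := exists_nat_gt (S / μ)
  have hN0 : (0 : ℝ) < N := lt_of_le_of_lt (by positivity) hN
  have hNpos : 0 < N := by exact_mod_cast hN0
  have hSN : S / N ≤ μ := by
    rw [div_lt_iff₀ hμ0] at hN
    rw [div_le_iff₀ hN0]
    linarith
  have g1 : S / N ≤ A / 400 := hSN.trans (min_le_left _ _)
  have g2 : 20 / 3 * A ^ 2 * (S / N) ≤ 1 / (4 * β) * θ * A ^ 3 / 2000 := by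
    have := hSN.trans ((min_le_right _ _).trans (min_le_left _ _))
    rw [le_div_iff₀ (by positivity)] at this
    linarith
  have g3 : S * (S / N) ≤ A ^ 2 / 400 := by
    have := hSN.trans ((min_le_right _ _).trans (min_le_right _ _))
    rw [le_div_iff₀ hS0] at this
    linarith
  -- the choice of `d`
  have ev : ∀ (f : ℝ → ℝ), Continuous f → f 0 = 0 → ∀ b : ℝ, 0 < b →
      ∀ᶠ d in 𝓝 (0 : ℝ), f d ≤ b := by
    intro f hf hf0 b hb
    have h1 : Tendsto f (𝓝 0) (𝓝 0) := by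
      have := hf.tendsto 0
      rwa [hf0] at this
    exact (h1.eventually_lt_const hb).mono fun d hd => hd.le
  have hall : ∀ᶠ d in 𝓝 (0 : ℝ), (d ≤ κ * A ^ 3 / 20000 ∧
      d ≤ A / 1000 * (1 / (4 * β) * (θ * A ^ 2 / Nw)) ∧
      d * (S + 2) ≤ 15 / 10000 * (A ^ 3 / 12) ∧ d ≤ A ^ 2 / 10 ∧
      2 * d / (1 / (4 * β) * (θ * A ^ 2)) ≤ A) ∧
      (7 * d + S * (3 * d + 4 * A * (2 * d / (1 / (4 * β) * (θ * A ^ 2)))) + 3 * N * d ≤
        1 / (4 * β) * θ * A ^ 3 / 1000 ∧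
      d * (S + 1) + 2 * N * d ≤ A ^ 3 / 10000) := by
    refine ((ev (fun d => d) continuous_id rfl _ (by positivity)).and
      ((ev (fun d => d) continuous_id rfl _ (by positivity)).and
      ((ev (fun d => d * (S + 2)) (by fun_prop) (by simp) _ (by positivity)).and
      ((ev (fun d => d) continuous_id rfl _ (by positivity)).and
      (ev (fun d => 2 * d / (1 / (4 * β) * (θ * A ^ 2))) (by fun_prop) (by simp) _ hA))))).and
      ((ev (fun d => 7 * d + S * (3 * d + 4 * A * (2 * d / (1 / (4 * β) * (θ * A ^ 2)))) +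
        3 * N * d) (by fun_prop) (by simp) _ (by positivity)).and
      (ev (fun d => d * (S + 1) + 2 * N * d) (by fun_prop) (by simp) _ (by positivity)))
  obtain ⟨r, hr, hr2⟩ := Metric.eventually_nhds_iff.1 hall
  refine ⟨r / 2, by positivity, ?_⟩
  intro ε d hε hd0 hd ψ p D
  have hdr : dist d 0 < r := by
    rw [Real.dist_eq, sub_zero, abs_of_nonneg hd0]
    linarith
  obtain ⟨⟨c1, c2, c3, c4, c5⟩, c6, c7⟩ := hr2 hdr
  have hε' : ε ≤ κ * A ^ 3 / 20000 := hε.trans (min_le_left _ _)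
  have s2 := step2 D hβ hC hθ hθC hκdef hκ1 hA hCA hθle hε' c1 hd0 hNwpos hN1 c2
  exact step6 D hβ hC hθ hκ hκ1 hA hA1 (by linarith) hCA2 hws1 hε' hd0 hT hT1 hS c3 c4 c5 s2
    hNpos g1 g2 g3 c6 c7

end Vale.Agent.P146.H865
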