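import Mathlib

/-!
# P146, lower half: grid lemmas for the unit-scale flow theorem (helper865)

Pure real analysis.  `drop`: a mean response over a window cannot drop (energy between two
exponents).  `mono`: two functions whose slopes are comparable at every point of a grid.
`energy`: the energy of a window from a lower bound of the slopes.  `chain`: the sum over a
geometric chain of exponents.
-/

namespace Vale.Agent.P146.H865

open Set

/-- **Drop lemma.**  `m1`, `m2` are the free energies at two exponents as functions of the field;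
`γ α` are (approximate) supergradients of `m2`.  If a small supergradient forces the difference
`m2 - m1` to be at most `R`, and `R` is smaller than the difference at field `0` (up to the stated
errors), the mean response of `m2` over the window `[0, ws]` is at least `a2`. -/
lemma drop {m1 m2 : ℝ → ℝ} {γ C d a1 a2 ws D0 R : ℝ} {N : ℕ} (hN : 0 < N)
    (hγ : 0 < γ) (hws : 0 < ws) (ha : a2 ≤ a1) (ha2 : 0 ≤ a2)
    (hm1 : ∀ w ∈ Icc 0 ws, m1 w ≤ m1 0 + γ * a1 * w + d)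
    (hm2 : ∀ w ∈ Icc 0 ws, ∃ α : ℝ, -C ≤ α ∧
      (∀ w' ∈ Icc 0 ws, m2 w' ≤ m2 w + γ * α * (w' - w) + d) ∧
      (α ≤ a2 + d / (γ * (ws / N)) → m2 w - m1 w ≤ R))
    (hD : D0 ≤ m2 0 - m1 0)
    (hR : R < D0 - γ * (a1 - a2) * ws - γ * (C + a2) * (ws / N) - 2 * d) :
    m2 0 + γ * a2 * ws ≤ m2 ws := by
  classical
  by_contra hcon
  push Not at hcon
  have hN' : (0 : ℝ) < N := by exact_mod_cast hN
  set h : ℝ := ws / N with hh
  have hhpos : 0 < h := div_pos hws hN'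
  have hNh : (N : ℝ) * h = ws := by rw [hh]; field_simp
  let P : ℕ → Prop := fun i => m2 ((i : ℝ) * h) < m2 0 + γ * a2 * ((i : ℝ) * h)
  have hPN : P N := by
    show m2 ((N : ℝ) * h) < m2 0 + γ * a2 * ((N : ℝ) * h)
    rw [hNh]; exact hcon
  have hex : ∃ i, P i := ⟨N, hPN⟩
  have hle : Nat.find hex ≤ N := Nat.find_min' hex hPN
  have hsp := Nat.find_spec hex
  have hmin : ∀ m, m < Nat.find hex → ¬ P m := fun m hm => Nat.find_min hex hm
  obtain ⟨j, hj⟩ : ∃ j, Nat.find hex = j + 1 := by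
    rcases Nat.eq_zero_or_pos (Nat.find hex) with h0 | h0
    · exfalso
      rw [h0] at hsp
      have : m2 (((0 : ℕ) : ℝ) * h) < m2 0 + γ * a2 * (((0 : ℕ) : ℝ) * h) := hsp
      simp at this
    · exact ⟨Nat.find hex - 1, by omega⟩
  rw [hj] at hsp hle
  have hPj : ¬ P j := hmin j (by omega)
  have h1 : m2 (((j + 1 : ℕ) : ℝ) * h) < m2 0 + γ * a2 * (((j + 1 : ℕ) : ℝ) * h) := hsp
  have h2 : m2 0 + γ * a2 * ((j : ℝ) * h) ≤ m2 ((j : ℝ) * h) := not_lt.1 hPj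
  have hjN : ((j : ℝ) + 1) ≤ N := by exact_mod_cast hle
  have hj0 : (0 : ℝ) ≤ j := Nat.cast_nonneg j
  have e1 : (((j + 1 : ℕ) : ℝ) * h) = (j : ℝ) * h + h := by push_cast; ring
  rw [e1] at h1
  have hu : (j : ℝ) * h + h ≤ ws := by
    rw [← hNh]; nlinarith
  have hmem1 : (j : ℝ) * h + h ∈ Icc 0 ws := ⟨by positivity, hu⟩
  have hmem0 : (j : ℝ) * h ∈ Icc 0 ws := ⟨by positivity, by linarith⟩
  obtain ⟨α, hα1, hα2, hα3⟩ := hm2 _ hmem1
  have h3 := hα2 _ hmem0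
  have h4 : γ * α * ((j : ℝ) * h - ((j : ℝ) * h + h)) = -(γ * α * h) := by ring
  rw [h4] at h3
  have h5 : γ * α * h < γ * a2 * h + d := by nlinarith
  have hγh : 0 < γ * h := mul_pos hγ hhpos
  have h6 : α ≤ a2 + d / (γ * h) := by
    have : α - a2 ≤ d / (γ * h) := by
      rw [le_div_iff₀ hγh]; nlinarith
    linarith
  have h7 := hα3 h6
  have h8 : -(γ * C * h) ≤ γ * α * h := by nlinarith
  have h9 := hm1 _ hmem1
  have h10 : γ * (a1 - a2) * ((j : ℝ) * h + h) ≤ γ * (a1 - a2) * ws :=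
    mul_le_mul_of_nonneg_left hu (mul_nonneg hγ.le (by linarith))
  nlinarith

/-- **Monotone comparison on a grid**: slopes `θ1 ≤ (1 + r) θ0 + e`. -/
lemma mono {F0 F1 : ℝ → ℝ} {a h r e d : ℝ} (hh : 0 ≤ h) (hr : 0 ≤ r) {n : ℕ}
    (H : ∀ i : ℕ, i < n → ∃ θ0 θ1 : ℝ, F1 (a + (i + 1) * h) ≤ F1 (a + i * h) + θ1 * h + d ∧
      F0 (a + i * h - h) ≤ F0 (a + i * h) - θ0 * h + d ∧ θ1 ≤ (1 + r) * θ0 + e) :
    F1 (a + n * h) - F1 a ≤ (1 + r) * (F0 (a + n * h - h) - F0 (a - h)) +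
      n * (e * h + (2 + r) * d) := by
  induction n with
  | zero => simp
  | succ n ih =>
    have ih' := ih fun i hi => H i (by omega)
    obtain ⟨θ0, θ1, h1, h2, h3⟩ := H n (by omega)
    have e1 : a + ((n + 1 : ℕ) : ℝ) * h = a + (n + 1) * h := by push_cast; ring
    have e2 : a + ((n + 1 : ℕ) : ℝ) * h - h = a + n * h := by push_cast; ring
    rw [e2, e1]
    have h4 : θ1 * h ≤ ((1 + r) * θ0 + e) * h := mul_le_mul_of_nonneg_right h3 hh
    have h5 : (1 + r) * (θ0 * h) ≤ (1 + r) * (F0 (a + n * h) - F0 (a + n * h - h) + d) :=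
      mul_le_mul_of_nonneg_left (by linarith) (by linarith)
    push_cast
    nlinarith

/-- one step of the cube: `y₊³ - (y-h)₊³ ≤ 3 h (y-h)₊² + 6 h² y₊` -/
lemma cube_step {y h M : ℝ} (hh : 0 ≤ h) (hM : y ≤ M) (hM0 : 0 ≤ M) :
    (max y 0) ^ 3 - (max (y - h) 0) ^ 3 ≤ 3 * h * (max (y - h) 0) ^ 2 + 6 * h ^ 2 * M := by
  rcases le_total y 0 with hy | hy
  · have h1 : max y 0 = 0 := max_eq_right hy
    have h2 : max (y - h) 0 = 0 := max_eq_right (by linarith)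
    rw [h1, h2]
    have : 0 ≤ 6 * h ^ 2 * M := by positivity
    simpa using this
  · rw [max_eq_left hy]
    rcases le_total (y - h) 0 with h2 | h2
    · rw [max_eq_right h2]
      have hyh : y ≤ h := by linarith
      have h3 : y ^ 3 ≤ h ^ 2 * M := by
        calc y ^ 3 = y ^ 2 * y := by ring
          _ ≤ h ^ 2 * M := mul_le_mul (pow_le_pow_left₀ hy hyh 2) hM hy (by positivity)
      have : 0 ≤ h ^ 2 * M := by positivity
      nlinarith
    · rw [max_eq_left h2]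
      have h3 : h ≤ y := by linarith
      have h4 : y ^ 3 - (y - h) ^ 3 = 3 * h * (y - h) ^ 2 + 3 * h ^ 2 * (y - h) + h ^ 3 := by ring
      have h5 : h ^ 3 ≤ h ^ 2 * M := by
        calc h ^ 3 = h ^ 2 * h := by ring
          _ ≤ h ^ 2 * M := mul_le_mul_of_nonneg_left (by linarith) (by positivity)
      have h6 : h ^ 2 * (y - h) ≤ h ^ 2 * M :=
        mul_le_mul_of_nonneg_left (by linarith) (by positivity)
      have h7 : 0 ≤ h ^ 2 * M := by positivity
      rw [h4]; nlinarith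

/-- **Energy of a window** from a lower bound of the slopes. -/
lemma energy {F0 : ℝ → ℝ} {a h G a4 d M : ℝ} (hh : 0 ≤ h) (hG : 0 ≤ G) (hM0 : 0 ≤ M)
    (hM : a4 - a ≤ M) {n : ℕ}
    (H : ∀ i : ℕ, i < n → ∃ θ : ℝ, F0 (a + i * h) ≤ F0 (a + (i + 1) * h) - θ * h + d ∧
      G * (max (a4 - (a + (i + 1) * h)) 0) ^ 2 ≤ θ + d) :
    F0 a + G / 3 * (max (a4 - a) 0) ^ 3 ≤ F0 (a + n * h) +
      G / 3 * (max (a4 - (a + n * h)) 0) ^ 3 + n * (2 * G * h ^ 2 * M + d * h + d) := by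
  induction n with
  | zero => simp
  | succ n ih =>
    have ih' := ih fun i hi => H i (by omega)
    obtain ⟨θ, h1, h2⟩ := H n (by omega)
    have e1 : a + ((n + 1 : ℕ) : ℝ) * h = a + (n + 1) * h := by push_cast; ring
    rw [e1]
    have hnh : 0 ≤ (n : ℝ) * h := by positivity
    have h3 := cube_step (y := a4 - (a + n * h)) (h := h) (M := M) hh (by linarith) hM0
    have e2 : a4 - (a + (n : ℝ) * h) - h = a4 - (a + (n + 1) * h) := by ring
    rw [e2] at h3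
    have h4 : G * (max (a4 - (a + (n + 1) * h)) 0) ^ 2 * h ≤ (θ + d) * h :=
      mul_le_mul_of_nonneg_right h2 hh
    have h5 : G / 3 * ((max (a4 - (a + n * h)) 0) ^ 3 - (max (a4 - (a + (n + 1) * h)) 0) ^ 3) ≤
        G / 3 * (3 * h * (max (a4 - (a + (n + 1) * h)) 0) ^ 2 + 6 * h ^ 2 * M) :=
      mul_le_mul_of_nonneg_left h3 (by linarith)
    push_cast
    nlinarith

/-- **The chain of exponents.** -/
lemma chain {p : ℝ → ℝ} {κ q : ℝ} (hκ : 0 < κ) (hκ1 : κ ≤ 1 / 200) (hq : 0 ≤ q)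
    (hp : MonotoneOn p (Icc (1 / 2) (1 + κ)))
    (hQ : ∀ v ∈ Ico (1 / 2 : ℝ) 1, p ((1 + κ) * v) - p v ≤ κ * q * v ^ 5) :
    p 1 - p (51 / 100) ≤ 1934 / 10000 * q := by
  have hκ' : 0 < 1 + κ := by linarith
  have hlt : (1 + κ)⁻¹ < 1 := inv_lt_one_of_one_lt₀ (by linarith)
  have hpos : 0 < (1 + κ)⁻¹ := inv_pos.2 hκ'
  -- one step
  have hstep : ∀ v ∈ Ico (1 / 2 : ℝ) 1, p ((1 + κ) * v) - p v ≤
      q / 5 * (((1 + κ) * v) ^ 5 - v ^ 5) := by
    intro v hv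
    refine (hQ v hv).trans ?_
    have hv0 : 0 < v := by linarith [hv.1]
    have h1 : 1 + 5 * κ ≤ (1 + κ) ^ 5 := by
      have := one_add_mul_le_pow (a := κ) (by linarith) 5
      simpa using this
    have h2 : 0 ≤ v ^ 5 := by positivity
    have h3 : 5 * κ * v ^ 5 ≤ ((1 + κ) * v) ^ 5 - v ^ 5 := by
      rw [mul_pow]
      nlinarith
    calc κ * q * v ^ 5 = q / 5 * (5 * κ * v ^ 5) := by ring
      _ ≤ _ := mul_le_mul_of_nonneg_left h3 (by linarith)
  -- chain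
  have hch : ∀ n : ℕ, (1 / 2 : ℝ) ≤ (1 + κ)⁻¹ ^ n →
      p 1 - p ((1 + κ)⁻¹ ^ n) ≤ q / 5 * (1 - ((1 + κ)⁻¹ ^ n) ^ 5) := by
    intro n
    induction n with
    | zero => intro _; simp
    | succ n ih =>
      intro hn
      have h1 : (1 + κ) * (1 + κ)⁻¹ ^ (n + 1) = (1 + κ)⁻¹ ^ n := by
        rw [pow_succ]; field_simp
      have h2 : (1 + κ)⁻¹ ^ (n + 1) < 1 := pow_lt_one₀ hpos.le hlt (by omega)
      have h3 : (1 / 2 : ℝ) ≤ (1 + κ)⁻¹ ^ n := by
        rw [← h1]; nlinarith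
      have h4 := hstep _ ⟨hn, h2⟩
      rw [h1] at h4
      have h5 := ih h3
      linarith
  -- the first point below `51/100`
  obtain ⟨n0, hn0⟩ := exists_pow_lt_of_lt_one (show (0 : ℝ) < 51 / 100 by norm_num) hlt
  classical
  have hex : ∃ n : ℕ, (1 + κ)⁻¹ ^ n ≤ 51 / 100 := ⟨n0, hn0.le⟩
  have hsp := Nat.find_spec hex
  obtain ⟨j, hj⟩ : ∃ j, Nat.find hex = j + 1 := by
    rcases Nat.eq_zero_or_pos (Nat.find hex) with h0 | h0
    · exfalso; rw [h0] at hsp; norm_num at hsp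
    · exact ⟨Nat.find hex - 1, by omega⟩
  have hmin : ¬ (1 + κ)⁻¹ ^ j ≤ 51 / 100 := Nat.find_min hex (by omega)
  rw [hj] at hsp
  push Not at hmin
  set v := (1 + κ)⁻¹ ^ (j + 1) with hv
  have h1 : (1 + κ) * v = (1 + κ)⁻¹ ^ j := by
    rw [hv, pow_succ]; field_simp
  have h2 : (507 / 1000 : ℝ) ≤ v := by
    rw [← h1] at hmin
    nlinarith
  have h3 := hch (j + 1) (by rw [← hv]; linarith)
  rw [← hv] at h3
  have h4 : p v ≤ p (51 / 100) :=
    hp ⟨by linarith, by linarith⟩ ⟨by norm_num, by linarith⟩ hsp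
  have h5 : (507 / 1000 : ℝ) ^ 5 ≤ v ^ 5 := pow_le_pow_left₀ (by norm_num) h2 5
  have h6 : q / 5 * (1 - v ^ 5) ≤ q / 5 * (1 - (507 / 1000) ^ 5) :=
    mul_le_mul_of_nonneg_left (by linarith) (by linarith)
  have h7 : q / 5 * (1 - (507 / 1000 : ℝ) ^ 5) ≤ 1934 / 10000 * q := by
    have : (1 - (507 / 1000 : ℝ) ^ 5) / 5 ≤ 1934 / 10000 := by norm_num
    nlinarith
  linarith

end Vale.Agent.P146.H865
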