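import Vale.Agent.P146.H865.Rows

/-!
# P146, lower half: no hitting points (helper865)
-/

namespace Vale.Agent.P146.H865

open Set Filter Topology
open Vale.Agent.P146.H560 Vale.Agent.P146.U

/-- **No hitting points.**  If the rows hold at every hitting point, there is none, for every
small level `A`, all large `n` and all exponents above `K n^(-1/6)`. -/
theorem flow {β : ℝ} (hβ : 0 < β) {X0 : ℕ → ℝ} (hX : Tendsto X0 atTop (𝓝 0))
    (hX1 : ∀ᶠ n : ℕ in atTop, X0 n ≤ (n : ℝ) ^ (-(1 / 10) : ℝ))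
    (h2 : Ex2Strong β) (h2' : Ex2Out β) (hL : LStar β) (hR : RowsSK β X0) :
    ∃ κ : ℝ, 0 < κ ∧ κ ≤ 1 / 200 ∧ ∃ Ab : ℝ, 0 < Ab ∧ ∀ A : ℝ, 0 < A → A ≤ Ab →
      ∃ K : ℝ, ∃ n0 : ℕ, ∀ n : ℕ, n0 ≤ n → ∀ u : ℝ, K * (n : ℝ) ^ (-(1 / 6) : ℝ) ≤ u →
        u ≤ X0 n → ¬ Hits n β κ A (X0 n) u := by
  obtain ⟨C, hC, hR⟩ := hR
  obtain ⟨κ, hκ, hκ1, Ab, hAb, hF⟩ := f1 hβ hC
  refine ⟨κ, hκ, hκ1, min Ab 1, lt_min hAb one_pos, ?_⟩
  intro A hA hAA
  obtain ⟨ε, hε, hF⟩ := hF A hA (hAA.trans (min_le_left _ _))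
  obtain ⟨S0, hR⟩ := hR κ hκ hκ1 A hA (hAA.trans (min_le_right _ _)) ε hε
  obtain ⟨S1, T0, n1, -, hT0, -, hlk⟩ := link_eps hβ.le h2 h2' hL hε
  obtain ⟨S, hS⟩ : ∃ S : ℝ, S = max S0 (max S1 1) := ⟨_, rfl⟩
  have hSS0 : S0 ≤ S := by rw [hS]; exact le_max_left _ _
  have hSS1 : S1 ≤ S := by rw [hS]; exact (le_max_left _ _).trans (le_max_right _ _)
  have hS1 : 1 ≤ S := by rw [hS]; exact (le_max_right _ _).trans (le_max_right _ _)
  obtain ⟨τ0, hτ0, hR⟩ := hR S hSS0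
  obtain ⟨τ, hτ⟩ : ∃ τ : ℝ, τ = min τ0 (min T0 (min (ε / 2) (1 / 2))) := ⟨_, rfl⟩
  have hτpos : 0 < τ := by
    rw [hτ]; exact lt_min hτ0 (lt_min hT0 (lt_min (by positivity) (by norm_num)))
  have hττ0 : τ ≤ τ0 := by rw [hτ]; exact min_le_left _ _
  have hτT0 : τ ≤ T0 := by rw [hτ]; exact (min_le_right _ _).trans (min_le_left _ _)
  have hτε : τ ≤ ε / 2 := by
    rw [hτ]; exact (min_le_right _ _).trans ((min_le_right _ _).trans (min_le_left _ _))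
  have hτ2 : τ ≤ 1 / 2 := by
    rw [hτ]; exact (min_le_right _ _).trans ((min_le_right _ _).trans (min_le_right _ _))
  obtain ⟨B, hB, hR⟩ := hR τ hτpos hττ0
  obtain ⟨d, hd, hF⟩ := hF B S (2 * τ) hB hS1 (by linarith) (by linarith)
  obtain ⟨K, n2, hR⟩ := hR d hd
  -- the scale `X0 n` is small
  have hsm : ∀ᶠ n : ℕ in atTop, X0 n ≤ min (1 / 2) (1 / (2 * S)) :=
    hX.eventually_le_const (lt_min (by norm_num) (by positivity))
  obtain ⟨n3, hn3⟩ := (hsm.and hX1).exists_forall_of_atTop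
  refine ⟨max K 2, max (max n1 n2) (max n3 1), ?_⟩
  intro n hn u hu hu' hH
  have hn1 : n1 ≤ n := (le_max_left _ _).trans ((le_max_left _ _).trans hn)
  have hn2 : n2 ≤ n := (le_max_right _ _).trans ((le_max_left _ _).trans hn)
  have hn3' : n3 ≤ n := (le_max_left _ _).trans ((le_max_right _ _).trans hn)
  have hn0 : 0 < n := Nat.lt_of_lt_of_le one_pos
    ((le_max_right _ _).trans ((le_max_right _ _).trans hn))
  have hnR : (0 : ℝ) < n := Nat.cast_pos.2 hn0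
  obtain ⟨hx1, hx2⟩ := hn3 n hn3'
  have hs : 0 < (n : ℝ) ^ (-(1 / 6) : ℝ) := Real.rpow_pos_of_pos hnR _
  have hu2 : 2 * (n : ℝ) ^ (-(1 / 6) : ℝ) ≤ u :=
    (mul_le_mul_of_nonneg_right (le_max_right _ _) hs.le).trans hu
  have huK : K * (n : ℝ) ^ (-(1 / 6) : ℝ) ≤ u :=
    (mul_le_mul_of_nonneg_right (le_max_left _ _) hs.le).trans hu
  have hu0 : 0 < u := by linarith
  have hu12 : u ≤ 1 / 2 := hu'.trans (hx1.trans (min_le_left _ _))
  have huS : S * u ≤ 1 / 2 := by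
    have h1 : u ≤ 1 / (2 * S) := hu'.trans (hx1.trans (min_le_right _ _))
    have hS0 : 0 < S := by linarith
    rw [le_div_iff₀ (by positivity)] at h1
    linarith
  have hSu : S * u ^ 2 ≤ 1 / 2 := by
    have h1 : S * u * u ≤ 1 / 2 * 1 :=
      mul_le_mul huS (by linarith) hu0.le (by norm_num)
    calc S * u ^ 2 = S * u * u := by ring
      _ ≤ 1 / 2 := by linarith
  have hκu : (1 + κ) * u ≤ 1 := by
    have := mul_le_mul_of_nonneg_right hκ1 hu0.le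
    linarith
  obtain ⟨g1, g2, g3⟩ := hR n hn2 u huK hu' hH
  obtain ⟨k1, k2, -⟩ := hlk n hn1 κ τ u S hκ.le hκ1 hu2 (hu'.trans hx2) hτpos hτT0 hSS1 hSu
  have k0 : pU n β u (51 / 100) - ε ≤ psiU n β κ τ u (2 * τ) (1 + κ) 0 := by
    have h1 : 2 * τ * u ^ 2 ≤ S * u ^ 2 :=
      mul_le_mul_of_nonneg_right (by linarith) (by positivity)
    have := link_zero' (β := β) hn0 hu0 hκ.le hκu hτpos (show τ ≤ 2 * τ by linarith)
      (by linarith)
    linarith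
  exact hF ε d le_rfl hd.le le_rfl (psiU n β κ τ u) (pU n β u)
    (Dat.of g1 g2 g3 k1 k2 k0 (pU_monI hn0 hu0) (pU_hit hn0 hu0 hκ hH.hit)
      (pU_low hn0 hu0 hκ fun v hv => (hH.low v hv).le))

end Vale.Agent.P146.H865
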