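import Vale.Agent.P146.H865.LO
import Vale.Agent.P146.H479.Start

/-!
# P146, lower half: the start of the flow variable (helper865)
-/

namespace Vale.Agent.P146.H865

open Set Filter Topology
open Vale.Agent.P146.H560 Vale.Agent.P146.U Vale.Agent.P146.U.AP Vale.Agent.P146.R1

/-- from the sharp law of the exponential moments to the flow variable -/
lemma QU_of_Kn {n : ℕ} {β κ x Λ : ℝ} (hn : 0 < n) (hκ : 0 < κ) (hκ1 : κ ≤ 1 / 200) (hx : 0 < x)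
    (hΛ : 0 < Λ)
    (h1 : |Kn n β x - Λ * (n * x ^ 6)| ≤ κ * Λ * (n * x ^ 6))
    (h2 : |Kn n β ((1 + κ) * x) - Λ * (n * ((1 + κ) * x) ^ 6)| ≤
      κ * Λ * (n * ((1 + κ) * x) ^ 6)) : Λ ≤ QU n β κ x := by
  have hnR : (0 : ℝ) < n := Nat.cast_pos.2 hn
  have hz : 0 < (1 + κ) * x := by positivity
  have a1 := (abs_le.1 h1).2
  have a2 := (abs_le.1 h2).1
  unfold QU
  rw [le_div_iff₀ (by positivity)]
  have e1 : P1 n β x = Vale.Agent.P146.H196.meanF n β + Kn n β x / x := W_one_Kn hx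
  have e2 : P1 n β ((1 + κ) * x) =
    Vale.Agent.P146.H196.meanF n β + Kn n β ((1 + κ) * x) / ((1 + κ) * x) := W_one_Kn hz
  rw [e1, e2]
  have v1 : Kn n β x / x ≤ (1 + κ) * Λ * (n * x ^ 5) := by
    rw [div_le_iff₀ hx]
    have e : (1 + κ) * Λ * (n * x ^ 5) * x = Λ * (n * x ^ 6) + κ * Λ * (n * x ^ 6) := by ring
    rw [e]; linarith
  have v2 : (1 - κ) * Λ * (n * ((1 + κ) * x) ^ 5) ≤ Kn n β ((1 + κ) * x) / ((1 + κ) * x) := by
    rw [le_div_iff₀ hz]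
    have e : (1 - κ) * Λ * (n * ((1 + κ) * x) ^ 5) * ((1 + κ) * x) =
      Λ * (n * ((1 + κ) * x) ^ 6) - κ * Λ * (n * ((1 + κ) * x) ^ 6) := by ring
    rw [e]; linarith
  have hN : 0 < Λ * (n * x ^ 5) := by positivity
  have e3 : (1 - κ) * Λ * (n * ((1 + κ) * x) ^ 5) = (1 - κ) * (1 + κ) ^ 5 * (Λ * (n * x ^ 5)) := by
    ring
  have e4 : (1 + κ) * Λ * (n * x ^ 5) = (1 + κ) * (Λ * (n * x ^ 5)) := by ring
  have e5 : Λ * (κ * (n * x ^ 5)) = κ * (Λ * (n * x ^ 5)) := by ring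
  rw [e3] at v2
  rw [e4] at v1
  rw [e5]
  -- `(1 - κ) (1 + κ)^5 ≥ 1 + 2 κ + κ`
  have k : 1 + 3 * κ ≤ (1 - κ) * (1 + κ) ^ 5 := by
    have b : 1 + 5 * κ ≤ (1 + κ) ^ 5 := by
      have := one_add_mul_le_pow (show (-2 : ℝ) ≤ κ by linarith) 5
      push_cast at this
      linarith
    have b2 : (1 - κ) * (1 + 5 * κ) ≤ (1 - κ) * (1 + κ) ^ 5 :=
      mul_le_mul_of_nonneg_left b (by linarith)
    nlinarith
  have k2 := mul_le_mul_of_nonneg_right k hN.le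
  nlinarith

/-- **The start of the flow variable.** -/
theorem startQ {β : ℝ} (hβ : 1 < β) : StartQ β := by
  obtain ⟨Λ, hΛ, h⟩ := Vale.Agent.P146.U.H479.start_K hβ
  refine ⟨Λ, hΛ, fun κ hκ hκ1 => ?_⟩
  obtain ⟨δ, hδ, hn⟩ := h (κ * Λ) (by positivity)
  refine ⟨δ / 2, by positivity, ?_⟩
  filter_upwards [hn, eventually_ge_atTop 1] with n h1 hn1 x hx hxδ
  have hnR : (0 : ℝ) < n := by exact_mod_cast hn1
  have hx0 : 0 < x := (Real.rpow_pos_of_pos hnR _).trans_le hx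
  have hxz : x ≤ (1 + κ) * x := by nlinarith
  have hzδ : (1 + κ) * x ≤ δ := by nlinarith
  exact QU_of_Kn (by omega) hκ hκ1 hx0 hΛ (h1 x hx (by linarith))
    (h1 ((1 + κ) * x) (hx.trans hxz) hzδ)

end Vale.Agent.P146.H865
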